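import Vale.Agent.N036W.Line

/-!
# P036: collinear triples of the curved window with prescribed classes
-/

namespace Vale.Agent.N036W

open Finset Vale.Agent.P036.QF Vale.Agent.P036.QF.D2

variable {J : Type} [Fintype J] [DecidableEq J] {d : ℤ}

theorem eq_of_div {l : ℕ} (_hl : 0 < l) {x y b : ℤ} (h1 : (x : ZMod l) = (y : ZMod l))
    (h2 : (x - b) / l = (y - b) / l) : x = y := by
  have h3 : (l : ℤ) ∣ y - x := (ZMod.intCast_eq_intCast_iff_dvd_sub x y l).1 h1
  have h4 : (x - b) % l = (y - b) % l := by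
    refine (Int.emod_emod_of_dvd _ dvd_rfl).symm.trans ?_
    rw [Int.emod_emod_of_dvd _ dvd_rfl, Int.emod_eq_emod_iff_emod_sub_eq_zero]
    refine Int.emod_eq_zero_of_dvd ?_
    rw [show x - b - (y - b) = -(y - x) by ring]
    exact h3.neg_right
  have h5 := Int.mul_ediv_add_emod (x - b) l
  have h6 := Int.mul_ediv_add_emod (y - b) l
  rw [h2, h4] at h5
  linarith

theorem div_mem {l n : ℕ} (hl : 0 < l) (hn : l ∣ n) {x : ℤ} (h0 : 0 ≤ x) (h1 : x < n) :
    x / l ∈ Ico (0:ℤ) ((n / l : ℕ) : ℤ) := by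
  obtain ⟨k, rfl⟩ := hn
  have hl' : (0:ℤ) < l := by exact_mod_cast hl
  rw [mem_Ico, Nat.mul_div_cancel_left _ hl]
  refine ⟨Int.ediv_nonneg h0 hl'.le, Int.ediv_lt_of_lt_mul hl' ?_⟩
  push_cast at h1
  linarith

theorem div_mem' {l n : ℕ} (hl : 0 < l) {x : ℤ} (h0 : 0 ≤ x) (h1 : x ≤ n) :
    x / l ∈ Ico (0:ℤ) ((n / l + 1 : ℕ) : ℤ) := by
  have hl' : (0:ℤ) < l := by exact_mod_cast hl
  rw [mem_Ico]
  refine ⟨Int.ediv_nonneg h0 hl'.le, ?_⟩
  have := Int.ediv_le_ediv hl' h1
  push_cast
  omega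

open scoped Classical in
/-- near points in one class -/
theorem card_near_class (j0 : J) (M h l s : ℕ) (hl : 0 < l) (hM : l ∣ M) (hh : l ∣ h)
    (m : J → ℤ√d) (c : J → ZMod l × ZMod l) :
    ((nr j0 d M h s m).filter fun p => cls l p = c).card ≤
      (M / l * (2 * s / l + 1)) ^ (Fintype.card J - 1) * (M / l * (h / l)) := by
  let T : J → Finset (ℤ × ℤ) := fun j =>
    if j = j0 then Ico (0:ℤ) ((M / l : ℕ) : ℤ) ×ˢ Ico (0:ℤ) ((h / l : ℕ) : ℤ)
    else Ico (0:ℤ) ((M / l : ℕ) : ℤ) ×ˢ Ico (0:ℤ) ((2 * s / l + 1 : ℕ) : ℤ)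
  have hc : (Fintype.piFinset T).card =
      (M / l * (2 * s / l + 1)) ^ (Fintype.card J - 1) * (M / l * (h / l)) := by
    rw [Fintype.card_piFinset, ← Finset.mul_prod_erase _ _ (Finset.mem_univ j0), mul_comm]
    congr 1
    · rw [Finset.prod_congr rfl (g := fun _ => M / l * (2 * s / l + 1)), Finset.prod_const,
        Finset.card_erase_of_mem (Finset.mem_univ j0), Finset.card_univ]
      intro j hj
      simp only [T, if_neg (Finset.mem_erase.1 hj).1, card_product, Int.card_Ico, sub_zero,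
        Int.toNat_natCast]
    · simp only [T, if_true, card_product, Int.card_Ico, sub_zero, Int.toNat_natCast]
  rw [← hc]
  let bs : (J → ℤ√d) → J → ℤ := fun x j =>
    if j = j0 then fl j0 M x else ⌊s1 d (m j) - (x j).im * Real.sqrt d⌋ - s
  refine Finset.card_le_card_of_injOn
    (fun x j => (((x j).im - 0) / l, ((x j).re - bs x j) / l)) ?_ ?_
  · intro x hx
    rw [Finset.mem_coe, mem_filter, nr, mem_filter] at hx
    obtain ⟨⟨hW, -, hn⟩, -⟩ := hx
    obtain ⟨h1, h2, h3, h4⟩ := (W_mem hW).2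
    rw [Finset.mem_coe, Fintype.mem_piFinset]
    intro j
    have e1 := div_mem hl hM (h1 j).1 (h1 j).2
    by_cases hj : j = j0
    · subst hj
      simp only [T, bs, if_true, mem_product, sub_zero]
      exact ⟨e1, div_mem hl hh (by omega) (by omega)⟩
    · simp only [T, bs, if_neg hj, mem_product, sub_zero]
      have e2 := mem_Nr (h1 j) (hn j hj)
      rw [Nr, mem_biUnion] at e2
      obtain ⟨b, -, e3⟩ := e2
      obtain ⟨a, e4, e5⟩ := mem_image.1 e3
      rw [mem_Icc] at e4
      have e6 : (x j).re = a := by rw [← e5]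
      have e7 : (x j).im = b := by rw [← e5]
      rw [← e6, ← e7] at e4
      exact ⟨e1, div_mem' hl (by omega) (by push_cast; omega)⟩
  · intro x hx y hy hxy
    rw [Finset.mem_coe, mem_filter] at hx hy
    have hcl : ∀ j, cls l x j = cls l y j := fun j => by rw [hx.2, hy.2]
    have him : ∀ j, (x j).im = (y j).im := fun j =>
      eq_of_div hl (congrArg Prod.snd (hcl j)) (congrArg Prod.fst (congrFun hxy j))
    have hre : ∀ j, j ≠ j0 → (x j).re = (y j).re := by
      intro j hj
      have e := congrArg Prod.snd (congrFun hxy j)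
      simp only [bs, if_neg hj, him j] at e
      exact eq_of_div hl (congrArg Prod.fst (hcl j)) e
    funext j
    refine Zsqrtd.ext ?_ (him j)
    by_cases hj : j = j0
    · subst hj
      have e := congrArg Prod.snd (congrFun hxy j)
      simp only [bs, if_true, fl_congr j M x y him hre] at e
      exact eq_of_div hl (congrArg Prod.fst (hcl j)) e
    · exact hre j hj

open scoped Classical in
theorem card_near (j0 : J) (M h l s : ℕ) (hl : 0 < l) (hM : l ∣ M) (hh : l ∣ h)
    (m : J → ℤ√d) (S : Finset (J → ZMod l × ZMod l)) :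
    ((nr j0 d M h s m).filter fun p => cls l p ∈ S).card ≤
      S.card * ((M / l * (2 * s / l + 1)) ^ (Fintype.card J - 1) * (M / l * (h / l))) := by
  have hsub : (nr j0 d M h s m).filter (fun p => cls l p ∈ S) ⊆
      S.biUnion fun c => (nr j0 d M h s m).filter fun p => cls l p = c := by
    intro p hp
    rw [mem_filter] at hp
    exact mem_biUnion.2 ⟨_, hp.2, mem_filter.2 ⟨hp.1, rfl⟩⟩
  exact (card_le_card hsub).trans (card_biUnion_le_card_mul _ _ _ fun c _ =>
    card_near_class j0 M h l s hl hM hh m c)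

/-- every collinear triple can be ordered as middle point, near point, third point -/
theorem col_perm (hd : Good d) (j0 : J) (M h s : ℕ) (hM : 0 < M)
    (hs : 16 * Fintype.card J * M * (h + 2) ≤ s ^ 2) {a b c : J → ℤ√d}
    (ha : a ∈ W j0 d M h) (hb : b ∈ W j0 d M h) (hc : c ∈ W j0 d M h) (hab : a ≠ b)
    (hbc : b ≠ c) (hac : a ≠ c) (hP : Par (b - a) (c - a)) :
    (a, b, c) ∈ U j0 d M h s ∨ (a, c, b) ∈ U j0 d M h s ∨ (b, a, c) ∈ U j0 d M h s ∨
      (b, c, a) ∈ U j0 d M h s ∨ (c, a, b) ∈ U j0 d M h s ∨ (c, b, a) ∈ U j0 d M h s := by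
  set x : J → ℝ := fun j => s1 d (b j) - s1 d (a j) with hx
  set y : J → ℝ := fun j => s1 d (c j) - s1 d (a j) with hy
  have hPR : PR x y := by
    intro i j
    have := congrArg (s1 d) (hP i j)
    simpa only [Pi.sub_apply, s1_mul hd.pos.le, s1_sub] using this
  have hx0 : x ≠ 0 := fun h0 => hab (funext fun j =>
    (s1_inj hd (sub_eq_zero.1 (congrFun h0 j))).symm)
  have hy0 : y ≠ 0 := fun h0 => hac (funext fun j =>
    (s1_inj hd (sub_eq_zero.1 (congrFun h0 j))).symm)
  have hxy : x ≠ y := by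
    intro h0
    apply hbc
    funext j
    have := congrFun h0 j
    simp only [hx, hy, sub_left_inj] at this
    exact s1_inj hd this
  have hco : ∀ i j, (b i - a i) * (c j - a j) = (b j - a j) * (c i - a i) := hP
  rcases middle hPR hx0 hy0 hxy with h1 | h1 | h1
  · rcases mid_mem hd j0 M h s hM hs ha hb hc hab.symm hac.symm hP h1 with h2 | h2 <;> tauto
  · have hP' : Par (a - b) (c - b) := by
      intro i j
      simp only [Pi.sub_apply]
      linear_combination - hco i j
    have h1' : (fun j => s1 d (a j) - s1 d (b j)) ⬝ᵥ (fun j => s1 d (c j) - s1 d (b j)) < 0 := by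
      have e1 : (fun j => s1 d (a j) - s1 d (b j)) = -x := by
        funext j; simp [hx]
      have e2 : (fun j => s1 d (c j) - s1 d (b j)) = y - x := by
        funext j; simp [hx, hy]
      rw [e1, e2, neg_dotProduct, dotProduct_sub]
      linarith
    rcases mid_mem hd j0 M h s hM hs hb ha hc hab hbc.symm hP' h1' with h2 | h2 <;> tauto
  · have hP' : Par (a - c) (b - c) := by
      intro i j
      simp only [Pi.sub_apply]
      linear_combination hco i j
    have h1' : (fun j => s1 d (a j) - s1 d (c j)) ⬝ᵥ (fun j => s1 d (b j) - s1 d (c j)) < 0 := by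
      have e1 : (fun j => s1 d (a j) - s1 d (c j)) = -y := by
        funext j; simp [hy]
      have e2 : (fun j => s1 d (b j) - s1 d (c j)) = x - y := by
        funext j; simp [hx, hy]
      rw [e1, e2, neg_dotProduct, dotProduct_sub, dotProduct_comm y x]
      linarith
    rcases mid_mem hd j0 M h s hM hs hc ha hb hac hbc hP' h1' with h2 | h2 <;> tauto

open scoped Classical in
/-- **Collinear triples in the window with prescribed classes.** -/
theorem col_bound (hd : Good d) (j0 : J) (N : ℕ) (hN : Fintype.card J = N + 3)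
    (M h l s r : ℕ) (S : Finset (J → ZMod l × ZMod l)) (hl : 0 < l) (hlM : l ∣ M) (hlh : l ∣ h)
    (hM : 0 < M) (hh : h ≤ M) (hs : 16 * Fintype.card J * M * (h + 2) ≤ s ^ 2) (hr : 0 < r)
    (hrM : r ≤ M) :
    ((colTriples (WS j0 d M h l S)).card : ℝ) ≤ 6 * (WS j0 d M h l S).card *
      ((S.card * ((M / l * (2 * s / l + 1)) ^ (N + 2) * (M / l * (h / l))) : ℕ) *
          (33 * (M:ℝ) / r) ^ 2 +
        2 * (2 * N + 6) * 3 ^ (2 * N + 5) * 33 ^ 4 * (M:ℝ) ^ 4 * (r:ℝ) ^ (2 * N + 2)) := by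
  set T := WS j0 d M h l S with hT
  set UU := (U j0 d M h s).filter fun t => t.1 ∈ T ∧ t.2.1 ∈ T with hUU
  have hTW : ∀ x ∈ T, x ∈ W j0 d M h := fun x hx => (mem_filter.1 hx).1
  have hsub : colTriples T ⊆ UU.image (fun t => (t.1, t.2.1, t.2.2)) ∪
      UU.image (fun t => (t.1, t.2.2, t.2.1)) ∪ UU.image (fun t => (t.2.1, t.1, t.2.2)) ∪
      UU.image (fun t => (t.2.2, t.1, t.2.1)) ∪ UU.image (fun t => (t.2.1, t.2.2, t.1)) ∪
      UU.image (fun t => (t.2.2, t.2.1, t.1)) := by
    rintro ⟨a, b, c⟩ ht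
    rw [colTriples, Finset.mem_filter, Finset.mem_product, Finset.mem_product] at ht
    obtain ⟨⟨ha, hb, hc⟩, hab, hbc, hac, hP⟩ := ht
    simp only [mem_union]
    rcases col_perm hd j0 M h s hM hs (hTW _ ha) (hTW _ hb) (hTW _ hc) hab hbc hac hP with
      h2 | h2 | h2 | h2 | h2 | h2
    · exact .inl (.inl (.inl (.inl (.inl (mem_image.2 ⟨_, mem_filter.2 ⟨h2, ha, hb⟩, rfl⟩)))))
    · exact .inl (.inl (.inl (.inl (.inr (mem_image.2 ⟨_, mem_filter.2 ⟨h2, ha, hc⟩, rfl⟩)))))
    · exact .inl (.inl (.inl (.inr (mem_image.2 ⟨_, mem_filter.2 ⟨h2, hb, ha⟩, rfl⟩))))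
    · exact .inl (.inl (.inr (mem_image.2 ⟨_, mem_filter.2 ⟨h2, hb, hc⟩, rfl⟩)))
    · exact .inl (.inr (mem_image.2 ⟨_, mem_filter.2 ⟨h2, hc, ha⟩, rfl⟩))
    · exact .inr (mem_image.2 ⟨_, mem_filter.2 ⟨h2, hc, hb⟩, rfl⟩)
  have h6 : (colTriples T).card ≤ 6 * UU.card := by
    refine (card_le_card hsub).trans ?_
    refine (card_union_le _ _).trans ((Nat.add_le_add ?_ card_image_le).trans
      (le_of_eq (by ring : 5 * UU.card + UU.card = _)))
    refine (card_union_le _ _).trans ((Nat.add_le_add ?_ card_image_le).trans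
      (le_of_eq (by ring : 4 * UU.card + UU.card = _)))
    refine (card_union_le _ _).trans ((Nat.add_le_add ?_ card_image_le).trans
      (le_of_eq (by ring : 3 * UU.card + UU.card = _)))
    refine (card_union_le _ _).trans ((Nat.add_le_add ?_ card_image_le).trans
      (le_of_eq (by ring : 2 * UU.card + UU.card = _)))
    exact (card_union_le _ _).trans ((Nat.add_le_add card_image_le card_image_le).trans
      (le_of_eq (by ring)))
  obtain ⟨R, hR⟩ : ∃ R : ℝ, R =
      (S.card * ((M / l * (2 * s / l + 1)) ^ (N + 2) * (M / l * (h / l))) : ℕ) *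
          (33 * (M:ℝ) / r) ^ 2 +
        2 * (2 * N + 6) * 3 ^ (2 * N + 5) * 33 ^ 4 * (M:ℝ) ^ 4 * (r:ℝ) ^ (2 * N + 2) := ⟨_, rfl⟩
  rw [← hR]
  have hfib : ∀ m ∈ T, ((UU.filter fun t => t.1 = m).card : ℝ) ≤ R := by
    intro m hm
    set A := ((nr j0 d M h s m).filter fun p => cls l p ∈ S).image (· - m) with hA
    set B := (W j0 d M h).image (· - m) with hB
    have h1 := card_par hd (2 * N + 1) (by omega) M r hr hrM A B (by
      intro u hu
      obtain ⟨p, hp, rfl⟩ := mem_image.1 hu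
      rw [mem_filter, nr, mem_filter] at hp
      exact ⟨sub_ne_zero.2 hp.1.2.1, window_bounds hd j0 M h hM hh p m hp.1.1 (hTW m hm)⟩) (by
      intro u hu
      obtain ⟨p, hp, rfl⟩ := mem_image.1 hu
      exact window_bounds hd j0 M h hM hh p m hp (hTW m hm))
    have h2 : A.card ≤ S.card * ((M / l * (2 * s / l + 1)) ^ (N + 2) * (M / l * (h / l))) := by
      have := card_near (d := d) j0 M h l s hl hlM hlh m S
      rw [hN] at this
      exact card_image_le.trans this
    have h3 : (UU.filter fun t => t.1 = m).card ≤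
        ((A ×ˢ B).filter fun t => Par t.1 t.2).card := by
      refine card_le_card_of_injOn (fun t => (t.2.1 - m, t.2.2 - m)) ?_ ?_
      · intro t ht
        rw [mem_coe, mem_filter, hUU, mem_filter, U, mem_biUnion] at ht
        obtain ⟨⟨⟨m', -, e1⟩, -, e2⟩, e3⟩ := ht
        obtain ⟨p, e4, e5⟩ := mem_biUnion.1 e1
        obtain ⟨q, e6, rfl⟩ := mem_image.1 e5
        simp only at e2 e3
        subst e3
        rw [mem_filter] at e6
        rw [mem_coe, mem_filter, mem_product]
        exact ⟨⟨mem_image.2 ⟨p, mem_filter.2 ⟨e4, (mem_filter.1 e2).2⟩, rfl⟩,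
          mem_image.2 ⟨q, e6.1, rfl⟩⟩, e6.2⟩
      · rintro ⟨a, b, c⟩ ht ⟨a', b', c'⟩ ht' e
        rw [mem_coe, mem_filter] at ht ht'
        simp only [Prod.mk.injEq, sub_left_inj] at e ⊢
        exact ⟨ht.2.trans ht'.2.symm, e⟩
    refine le_trans (by exact_mod_cast h3) (h1.trans ?_)
    rw [hR]
    refine add_le_add (mul_le_mul_of_nonneg_right (by exact_mod_cast h2) (by positivity))
      (le_of_eq ?_)
    push_cast
    ring
  have h7 : (UU.card : ℝ) ≤ T.card * R := by
    rw [card_eq_sum_card_fiberwise (f := fun t => t.1) (t := T) fun t ht =>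
      (mem_filter.1 ht).2.1]
    push_cast
    refine (sum_le_sum hfib).trans ?_
    rw [sum_const, nsmul_eq_mul]
  have h8 : ((colTriples T).card : ℝ) ≤ 6 * UU.card := by exact_mod_cast h6
  linarith

end Vale.Agent.N036W
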