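import Vale.Agent.P036.QF.K4

/-!
# P036: the core with a local set whose degenerate class triples are counted
-/

namespace Vale.Agent.N036W

open Finset Vale.Agent.P036.QF

variable {ι : Type} [Fintype ι] [DecidableEq ι] {d : ℤ}

theorem card_bad2 (hd : Good d) (j0 : ι ⊕ ι) (l M h Y κW E : ℕ) (w : ℤ√d)
    (S : Finset (ι ⊕ ι → ZMod l × ZMod l))
    (Z : Finset ((ι ⊕ ι → ZMod l × ZMod l) × (ι ⊕ ι → ZMod l × ZMod l) ×
      (ι ⊕ ι → ZMod l × ZMod l))) (B : ℕ) (hZB : Z.card ≤ B)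
    (hZ : ∀ z q y : ι ⊕ ι → ℤ√d, cls l z ∈ S → cls l q ∈ S → cls l y ∈ S →
      (l : ℤ√d) ∣ om (q - z) (y - z) → (cls l z, cls l q, cls l y) ∈ Z)
    (hlw : (l : ℤ√d) ∣ w) (hw0 : w ≠ 0) (hE : ∀ c, detCount d Y c ≤ E)
    (hwc : ∀ c, (Wc j0 d M h l c).card = κW) :
    (bad w (XX j0 d Y M h l S)).card ≤ E * Y ^ 4 * (B * κW ^ 3) := by
  classical
  have h1 := card_le_image hd j0 l M h Y E w S hw0 hE (bad w (XX j0 d Y M h l S))
    (Finset.Subset.refl _)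
  have h2 : ((bad w (XX j0 d Y M h l S)).image fun t => (t.1.2, t.2.1.2, t.2.2.2)) ⊆
      Z.biUnion fun c => Wc j0 d M h l c.1 ×ˢ Wc j0 d M h l c.2.1 ×ˢ Wc j0 d M h l c.2.2 := by
    intro z hz
    obtain ⟨t, ht, rfl⟩ := mem_image.1 hz
    unfold bad XX at ht
    simp only [mem_filter, mem_product, WS] at ht
    obtain ⟨⟨⟨-, hza⟩, ⟨-, hzb⟩, ⟨-, hzc⟩⟩, -, -, -, hβ⟩ := ht
    refine mem_biUnion.2 ⟨(cls l t.1.2, cls l t.2.1.2, cls l t.2.2.2),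
      hZ _ _ _ hza.2 hzb.2 hzc.2 ?_, ?_⟩
    · unfold beta at hβ
      have : om (t.2.1.2 - t.1.2) (t.2.2.2 - t.1.2) =
          -(w * dt t.1.1 t.2.1.1 t.2.2.1) := by
        linear_combination hβ
      rw [this]
      exact (Dvd.dvd.mul_right hlw _).neg_right
    · simp only [mem_product, Wc, mem_filter]
      exact ⟨⟨hza.1, trivial⟩, ⟨hzb.1, trivial⟩, hzc.1, trivial⟩
  have h3 := (card_le_card h2).trans (card_biUnion_le_card_mul _ _ (κW ^ 3) fun c _ => by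
    rw [card_product, card_product, hwc, hwc, hwc]
    apply le_of_eq
    ring)
  calc _ ≤ _ := h1
    _ ≤ (Y ^ 4 * E) * (B * κW ^ 3) :=
        Nat.mul_le_mul_left _ (h3.trans (Nat.mul_le_mul_right _ hZB))
    _ = _ := by ring

open scoped Classical in
theorem card_dep2 (hd : Good d) (j0 : ι ⊕ ι) (l M h Y κW E Col : ℕ) (w : ℤ√d)
    (S : Finset (ι ⊕ ι → ZMod l × ZMod l)) (hw0 : w ≠ 0) (hE : ∀ c, detCount d Y c ≤ E)
    (hwc : ∀ c, (Wc j0 d M h l c).card = κW)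
    (hCol : (colTriples (WS j0 d M h l S)).card ≤ Col) :
    ((bad w (XX j0 d Y M h l S)).filter Dep).card ≤ E * Y ^ 4 * (S.card * κW + Col) := by
  have h1 := card_le_image hd j0 l M h Y E w S hw0 hE ((bad w (XX j0 d Y M h l S)).filter Dep)
    (Finset.filter_subset _ _)
  have hsub : (((bad w (XX j0 d Y M h l S)).filter Dep).image
      fun t => (t.1.2, t.2.1.2, t.2.2.2)) ⊆
      ((WS j0 d M h l S).image fun z => (z, z, z)) ∪ colTriples (WS j0 d M h l S) := by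
    intro z hz
    obtain ⟨t, ht, rfl⟩ := mem_image.1 hz
    obtain ⟨ht, hdep⟩ := mem_filter.1 ht
    unfold bad XX at ht
    simp only [mem_filter, mem_product] at ht
    obtain ⟨⟨⟨-, hza⟩, ⟨-, hzb⟩, ⟨-, hzc⟩⟩, -⟩ := ht
    rw [mem_union]
    rcases hdep with ⟨e1, e2⟩ | ⟨n1, n2, n3, hpar⟩
    · exact Or.inl (mem_image.2 ⟨t.1.2, hza, by rw [← e2, ← e1]⟩)
    · right
      unfold colTriples
      simp only [mem_filter, mem_product]
      exact ⟨⟨hza, hzb, hzc⟩, n1, n2, n3, hpar⟩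
  have h2 := (card_le_card hsub).trans ((card_union_le _ _).trans (Nat.add_le_add
    (card_image_le.trans (card_WS_of j0 l M h κW S hwc).le) hCol))
  calc _ ≤ _ := h1
    _ ≤ (Y ^ 4 * E) * (S.card * κW + Col) := Nat.mul_le_mul_left _ h2
    _ = _ := by ring

variable {p : ℕ} [Fact p.Prime] (r : ZMod p) (hr : r * r = (d : ZMod p))

include r hr in
theorem core2 (j0 : ι ⊕ ι) (hd : Good d)
    (l M h Y K n E Col κW : ℕ) (w : ℤ√d) (S : Finset (ι ⊕ ι → ZMod l × ZMod l))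
    (Z : Finset ((ι ⊕ ι → ZMod l × ZMod l) × (ι ⊕ ι → ZMod l × ZMod l) ×
      (ι ⊕ ι → ZMod l × ZMod l))) (B : ℕ) (hZB : Z.card ≤ B)
    (hZ : ∀ z q y : ι ⊕ ι → ℤ√d, cls l z ∈ S → cls l q ∈ S → cls l y ∈ S →
      (l : ℤ√d) ∣ om (q - z) (y - z) → (cls l z, cls l q, cls l y) ∈ Z)
    (hl : 0 < l) (hlM : l ∣ M) (hlh : l ∣ h) (hM0 : 0 < M)
    (hhM : h ≤ M) (hK : 0 < K) (hn : 3 ≤ n)
    (hlw : (l : ℤ√d) ∣ w) (hw0 : w ≠ 0) (hwp : |w.norm| < p) (hYp : 24 * Y ^ 2 < p)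
    (hMp : 300000 * M ^ 4 < p)
    (hE : ∀ c, detCount d Y c ≤ E)
    (hκ : κW = (M / l) ^ (4 * Fintype.card ι - 1) * (h / l))
    (hCol : (colTriples (WS j0 d M h l S)).card ≤ Col)
    (hmain : n * K ^ 3 * p ^ (3 * Fintype.card ι + 2) + E * Y ^ 4 * (B * κW ^ 3)
        + E * Y ^ 4 * (S.card * κW + Col) * p ^ Fintype.card ι
        ≤ K ^ 2 * (Y ^ 4 * (S.card * κW)) * p ^ (2 * Fintype.card ι + 1))
    (hB : 512 * (Fintype.card ι : ℝ) * M ^ 2 *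
      (32 * |s2 d w| * Y ^ 2 + 512 * (Fintype.card ι : ℝ) * M ^ 2) ≤ p / 2) :
    ∃ P : Finset (ℤ√d × ℤ√d), P.card = n ∧ (∀ t ∈ P, t.1 ∈ box d Y ∧ t.2 ∈ box d Y) ∧
      ∀ a ∈ P, ∀ b ∈ P, ∀ c ∈ P, a ≠ b → b ≠ c → a ≠ c →
        (p : ℝ) / 2 ≤ (32 * |s2 d w| * Y ^ 2 + 512 * (Fintype.card ι : ℝ) * M ^ 2) *
          (|s1 d w| * |s1 d (dt a b c)|) := by
  classical
  have hwc := class_card hd j0 l M h κW hl hlM hlh hM0 hκ
  have hXc := card_XX_of j0 l M h Y κW S hwc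
  obtain ⟨a, ha, Y', hY', hYn, hYa, hYb⟩ := select r hr w (XX j0 d Y M h l S) K n _ _ hK
    (fun P => count_one r hr w P)
    (fun t ht => count_dep r hr hd j0 l M h Y w S hM0 hhM hw0 hwp hYp hMp t ht)
    (fun t ht htd => count_indep r hr hd j0 l M h Y w S hM0 hhM hw0 hwp hYp hMp t ht htd)
    (card_bad2 hd j0 l M h Y κW E w S Z B hZB hZ hlw hw0 hE hwc)
    (card_dep2 hd j0 l M h Y κW E Col w S hw0 hE hwc hCol)
    (by rw [hXc]; exact hmain)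
  have hp0 : (0:ℝ) < p := by exact_mod_cast (Fact.out : p.Prime).pos
  have key : ∀ P ∈ Y', ∀ Q ∈ Y', ∀ R ∈ Y', P ≠ Q → Q ≠ R → P ≠ R →
      (p : ℝ) / 2 ≤ (32 * |s2 d w| * Y ^ 2 + 512 * (Fintype.card ι : ℝ) * M ^ 2) *
          (|s1 d w| * |s1 d (dt P.1 Q.1 R.1)|) := by
    intro P hP Q hQ R hR hPQ hQR hPR
    refine area_bound r hr hd j0 l M h Y w S hM0 hhM hB a ha P Q R (hY' hP) (hY' hQ) (hY' hR)
      (hYa P hP) (hYa Q hQ) (hYa R hR) ?_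
    intro hβ
    refine hYb (P, Q, R) ?_ ⟨hP, hQ, hR⟩
    simp only [bad, mem_filter, mem_product]
    exact ⟨⟨hY' hP, hY' hQ, hY' hR⟩, hPQ, hQR, hPR, hβ⟩
  have hinj : Set.InjOn (fun P : Pt ι d => P.1) Y' := by
    intro P hP Q hQ hPQ
    by_contra hne
    obtain ⟨R, hR, hRne⟩ : ∃ R ∈ Y', R ∉ ({P, Q} : Finset (Pt ι d)) := by
      by_contra hcon
      push Not at hcon
      have h5 : Y'.card ≤ ({P, Q} : Finset (Pt ι d)).card := card_le_card hcon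
      have h6 : ({P, Q} : Finset (Pt ι d)).card ≤ 2 := card_le_two
      omega
    simp only [mem_insert, mem_singleton, not_or] at hRne
    have h7 := key P hP Q hQ R hR hne (Ne.symm hRne.2) (Ne.symm hRne.1)
    have h8 : dt P.1 Q.1 R.1 = 0 := by
      have : P.1 = Q.1 := hPQ
      rw [dt, this]
      ring
    have h9 : s1 d (0 : ℤ√d) = 0 := by simp [s1]
    rw [h8, h9, abs_zero, mul_zero, mul_zero] at h7
    linarith
  refine ⟨Y'.image fun P => P.1, by rw [card_image_of_injOn hinj, hYn], ?_, ?_⟩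
  · intro t ht
    obtain ⟨P, hP, rfl⟩ := mem_image.1 ht
    exact (mem_XX.1 (hY' hP)).1
  · intro x hx y hy z hz hxy hyz hxz
    obtain ⟨P, hP, rfl⟩ := mem_image.1 hx
    obtain ⟨Q, hQ, rfl⟩ := mem_image.1 hy
    obtain ⟨R, hR, rfl⟩ := mem_image.1 hz
    exact key P hP Q hQ R hR (fun h => hxy (by rw [h])) (fun h => hyz (by rw [h]))
      (fun h => hxz (by rw [h]))

end Vale.Agent.N036W
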