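import Mathlib

/-!
# Heilbronn's function, literally: a maximum of minima
-/

namespace Vale.Agent.N036W

/-- the area `|det (q - p, r - p)| / 2` of the plane triangle `p q r` -/
noncomputable def area (p q r : ℝ × ℝ) : ℝ :=
  |Matrix.det !![q.1 - p.1, r.1 - p.1; q.2 - p.2, r.2 - p.2]| / 2

/-- `a` is the minimum of the areas of the triangles on three pairwise distinct points of `P` -/
def IsMinArea (P : Finset (ℝ × ℝ)) (a : ℝ) : Prop :=
  IsLeast {A : ℝ | ∃ p ∈ P, ∃ q ∈ P, ∃ r ∈ P, p ≠ q ∧ q ≠ r ∧ p ≠ r ∧ A = area p q r} a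

/-- for every `n ≥ 3`, `Δ n` is the maximum of the minimal triangle area over all `n`-point
subsets of the unit square -/
def IsHeilbronn (Δ : ℕ → ℝ) : Prop :=
  ∀ n : ℕ, 3 ≤ n → IsGreatest {a : ℝ | ∃ P : Finset (ℝ × ℝ), P.card = n ∧
    (∀ p ∈ P, 0 ≤ p.1 ∧ p.1 ≤ 1 ∧ 0 ≤ p.2 ∧ p.2 ≤ 1) ∧ IsMinArea P a} (Δ n)

end Vale.Agent.N036W
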