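import Mathlib
import Vale.Agent.N036.Loc

/-!
# P036: a weighted local set on 32 planes at a split prime

Labels are pairs `(a, λ)` with `a` in the cubic extension of `ZMod l` and `λ` a unit.  With
`h = λ μ N(a - b)`, the symplectic form is `h` modulo the first prime over `l` and `h ^ 3` modulo
the second one.  At the first prime 28 planes are idle and carry one free coordinate each.
-/

namespace Vale.Agent.N036W

open Finset Vale.Agent.P036.QF Vale.Agent.P036.QF.LS Vale.Agent.N036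

/-- index set of the planes -/
abbrev Jx : Type := Option Ix

theorem card_Jx : Fintype.card Jx = 32 := by
  rw [Fintype.card_option, card_Ix]

/-- the idle planes at the first prime -/
abbrev Idle : Type := Option (Fin 9 × Fin 3)

section
variable {l : ℕ} [Fact l.Prime]

/-- a label together with its free coordinates -/
abbrev Lb (l : ℕ) [Fact l.Prime] : Type := (Lab l × (ZMod l)ˣ) × (Idle → ZMod l)

/-- first family at the first prime -/
noncomputable def pu (A : Lb l) : Jx → ZMod l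
  | none => A.1.2
  | some none => A.2 none
  | some (some (i, k)) =>
      Fin.cases ((A.1.2 : ZMod l) * uu A.1.1 (some (0, k))) (fun i' => A.2 (some (i', k))) i

/-- second family at the first prime -/
noncomputable def pv (A : Lb l) : Jx → ZMod l
  | none => -(A.1.2 * nm A.1.1)
  | some j => A.1.2 * vr A.1.1 j

/-- first family at the second prime -/
noncomputable def qu (A : Lb l) : Jx → ZMod l
  | none => (A.1.2 : ZMod l) ^ 3
  | some j => (A.1.2 : ZMod l) ^ 3 * uu A.1.1 j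

/-- second family at the second prime -/
noncomputable def qv (A : Lb l) : Jx → ZMod l
  | none => -((A.1.2 : ZMod l) ^ 3 * nm A.1.1 ^ 3)
  | some j => (A.1.2 : ZMod l) ^ 3 * vi A.1.1 j

theorem pu_mul (A B : Lb l) (j : Ix) :
    pu A (some j) * vr B.1.1 j = A.1.2 * uu A.1.1 j * vr B.1.1 j := by
  rcases j with _ | ⟨i, k⟩
  · simp [vr]
  · refine Fin.cases ?_ (fun i' => ?_) i
    · simp [pu]
    · simp [vr, Fin.succ_ne_zero]

theorem skew_p (A B : Lb l) :
    skew pu pv A B = (A.1.2 : ZMod l) * B.1.2 * nm (A.1.1 - B.1.1) := by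
  have h := skew_vr A.1.1 B.1.1
  unfold skew at h ⊢
  rw [Fintype.sum_option]
  have h2 : ∑ j : Ix, (pu A (some j) * pv B (some j) - pv A (some j) * pu B (some j)) =
      (A.1.2 : ZMod l) * B.1.2 *
        ∑ j : Ix, (uu A.1.1 j * vr B.1.1 j - vr A.1.1 j * uu B.1.1 j) := by
    rw [Finset.mul_sum]
    refine Finset.sum_congr rfl fun j _ => ?_
    have e1 := pu_mul A B j
    have e2 := pu_mul B A j
    simp only [pv]
    linear_combination (B.1.2 : ZMod l) * e1 - (A.1.2 : ZMod l) * e2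
  rw [h2, h]
  simp only [pu, pv]
  ring

theorem skew_q (A B : Lb l) :
    skew qu qv A B = ((A.1.2 : ZMod l) * B.1.2 * nm (A.1.1 - B.1.1)) ^ 3 := by
  have h := skew_vi A.1.1 B.1.1
  unfold skew at h ⊢
  rw [Fintype.sum_option]
  have h2 : ∑ j : Ix, (qu A (some j) * qv B (some j) - qv A (some j) * qu B (some j)) =
      (A.1.2 : ZMod l) ^ 3 * (B.1.2 : ZMod l) ^ 3 *
        ∑ j : Ix, (uu A.1.1 j * vi B.1.1 j - vi A.1.1 j * uu B.1.1 j) := by
    rw [Finset.mul_sum]
    refine Finset.sum_congr rfl fun j _ => ?_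
    simp only [qu, qv]
    ring
  rw [h2, h]
  simp only [qu, qv]
  ring

/-- the pair `(re, im)` with prescribed reductions at the two primes -/
noncomputable def mk2 (ρ x y : ZMod l) : ZMod l × ZMod l := ((x + y) / 2, (x - y) / (2 * ρ))

theorem mk2_p {ρ : ZMod l} (h2 : (2 : ZMod l) ≠ 0) (h0 : ρ ≠ 0) (x y : ZMod l) :
    (mk2 ρ x y).1 + (mk2 ρ x y).2 * ρ = x := by
  simp only [mk2]; field_simp; ring

theorem mk2_q {ρ : ZMod l} (h2 : (2 : ZMod l) ≠ 0) (h0 : ρ ≠ 0) (x y : ZMod l) :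
    (mk2 ρ x y).1 + (mk2 ρ x y).2 * (-ρ) = y := by
  simp only [mk2]; field_simp; ring

/-- the class of a label with free coordinates -/
noncomputable def cl (ρ : ZMod l) (A : Lb l) : Jx ⊕ Jx → ZMod l × ZMod l
  | .inl j => mk2 ρ (pu A j) (qu A j)
  | .inr j => mk2 ρ (pv A j) (qv A j)

theorem cl_injective {ρ : ZMod l} (h2 : (2 : ZMod l) ≠ 0) (h0 : ρ ≠ 0) :
    Function.Injective (cl ρ : Lb l → _) := by
  intro A B h
  have hp : ∀ j, pu A j = pu B j := fun j => by
    have e : mk2 ρ (pu A j) (qu A j) = mk2 ρ (pu B j) (qu B j) := congrFun h (.inl j)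
    rw [← mk2_p h2 h0 (pu A j) (qu A j), e, mk2_p h2 h0]
  have h1 : A.1.2 = B.1.2 := Units.ext (hp none)
  have h3 : A.1.1 = B.1.1 := by
    apply (basis3 l).repr.injective
    ext k
    have e := hp (some (some (0, k)))
    simp only [pu, Fin.cases_zero, h1] at e
    have e' := mul_left_cancel₀ B.1.2.ne_zero e
    simpa [uu, ex, mon] using e'
  refine Prod.ext (Prod.ext h3 h1) (funext fun j => ?_)
  rcases j with _ | ⟨i, k⟩
  · exact hp (some none)
  · simpa [pu] using hp (some (some (i.succ, k)))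

theorem phi_om {d : ℤ} {r : ZMod l} (hr : r * r = (d : ZMod l)) {x y : Jx ⊕ Jx → ℤ√d}
    {u v : Lb l → Jx → ZMod l} {A B : Lb l}
    (hx1 : ∀ j, phi r hr (x (.inl j)) = u A j) (hx2 : ∀ j, phi r hr (x (.inr j)) = v A j)
    (hy1 : ∀ j, phi r hr (y (.inl j)) = u B j) (hy2 : ∀ j, phi r hr (y (.inr j)) = v B j) :
    phi r hr (om x y) = skew u v A B := by
  unfold om skew
  rw [map_sum]
  refine Finset.sum_congr rfl fun j _ => ?_
  rw [map_sub, map_mul, map_mul, hx1, hx2, hy1, hy2]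

theorem om_p {d : ℤ} {ρ : ZMod l} (hr : ρ * ρ = (d : ZMod l)) (h2 : (2 : ZMod l) ≠ 0)
    (h0 : ρ ≠ 0) {x y : Jx ⊕ Jx → ℤ√d} {A B : Lb l} (hx : cls l x = cl ρ A)
    (hy : cls l y = cl ρ B) :
    phi ρ hr (om x y) = (A.1.2 : ZMod l) * B.1.2 * nm (A.1.1 - B.1.1) := by
  rw [← skew_p]
  refine phi_om hr ?_ ?_ ?_ ?_ <;> intro j <;>
    simp only [phi_apply, cls_re hx, cls_im hx, cls_re hy, cls_im hy, cl, mk2_p h2 h0]

theorem om_q {d : ℤ} {ρ : ZMod l} (hr : (-ρ) * (-ρ) = (d : ZMod l)) (h2 : (2 : ZMod l) ≠ 0)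
    (h0 : ρ ≠ 0) {x y : Jx ⊕ Jx → ℤ√d} {A B : Lb l} (hx : cls l x = cl ρ A)
    (hy : cls l y = cl ρ B) :
    phi (-ρ) hr (om x y) = ((A.1.2 : ZMod l) * B.1.2 * nm (A.1.1 - B.1.1)) ^ 3 := by
  rw [← skew_q]
  refine phi_om hr ?_ ?_ ?_ ?_ <;> intro j <;>
    simp only [phi_apply, cls_re hx, cls_im hx, cls_re hy, cls_im hy, cl, mk2_q h2 h0]

theorem nm_neg (x : Lab l) : nm (-x) = -nm x := by
  apply (algebraMap (ZMod l) (Lab l)).injective
  simp only [map_neg, nm_eq]
  ring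

theorem nm_zero : nm (0 : Lab l) = 0 := by
  apply (algebraMap (ZMod l) (Lab l)).injective
  simp only [nm_eq, map_zero]
  ring

/-- degenerate triples of labels -/
def Deg (t : (Lab l × (ZMod l)ˣ) × (Lab l × (ZMod l)ˣ) × (Lab l × (ZMod l)ˣ)) : Prop :=
  t.1 = t.2.1 ∨ t.2.1 = t.2.2 ∨ t.2.2 = t.1 ∨ (t.1.1 = t.2.1.1 ∧ t.2.1.1 = t.2.2.1)

theorem deg_aux {A B C : Lab l × (ZMod l)ˣ} (hab : A.1 = B.1)
    (h : (A.2 : ZMod l) * B.2 * nm (A.1 - B.1) + (B.2 : ZMod l) * C.2 * nm (B.1 - C.1) +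
      (C.2 : ZMod l) * A.2 * nm (C.1 - A.1) = 0) : A = B ∨ (A.1 = B.1 ∧ B.1 = C.1) := by
  by_cases hbc : B.1 = C.1
  · exact Or.inr ⟨hab, hbc⟩
  · left
    have e : C.1 - A.1 = -(B.1 - C.1) := by rw [hab]; ring
    rw [e, nm_neg, hab, sub_self, nm_zero] at h
    have h' : (C.2 : ZMod l) * nm (B.1 - C.1) * ((B.2 : ZMod l) - A.2) = 0 := by
      linear_combination h
    have h3 := (mul_eq_zero.1 h').resolve_left
      (mul_ne_zero C.2.ne_zero (nm_ne (sub_ne_zero.2 hbc)))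
    exact Prod.ext hab (Units.ext (sub_eq_zero.1 h3).symm)

theorem deg_of (h3 : (3 : ZMod l) ≠ 0) {A B C : Lab l × (ZMod l)ˣ}
    (h1 : (A.2 : ZMod l) * B.2 * nm (A.1 - B.1) + (B.2 : ZMod l) * C.2 * nm (B.1 - C.1) +
      (C.2 : ZMod l) * A.2 * nm (C.1 - A.1) = 0)
    (h2 : ((A.2 : ZMod l) * B.2 * nm (A.1 - B.1)) ^ 3 +
      ((B.2 : ZMod l) * C.2 * nm (B.1 - C.1)) ^ 3 +
      ((C.2 : ZMod l) * A.2 * nm (C.1 - A.1)) ^ 3 = 0) : Deg (A, B, C) := by
  unfold Deg
  simp only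
  by_cases hab : A.1 = B.1
  · rcases deg_aux hab h1 with h | h
    · exact Or.inl h
    · exact Or.inr (Or.inr (Or.inr h))
  by_cases hbc : B.1 = C.1
  · rcases deg_aux (C := A) hbc (by linear_combination h1) with h | h
    · exact Or.inr (Or.inl h)
    · exact absurd (h.1.trans h.2).symm hab
  by_cases hca : C.1 = A.1
  · rcases deg_aux (C := B) hca (by linear_combination h1) with h | h
    · exact Or.inr (Or.inr (Or.inl h))
    · exact absurd h.2 hab
  exact (cubes_aux h3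
    (mul_ne_zero (mul_ne_zero A.2.ne_zero B.2.ne_zero) (nm_ne (sub_ne_zero.2 hab)))
    (mul_ne_zero (mul_ne_zero B.2.ne_zero C.2.ne_zero) (nm_ne (sub_ne_zero.2 hbc)))
    (mul_ne_zero (mul_ne_zero C.2.ne_zero A.2.ne_zero) (nm_ne (sub_ne_zero.2 hca))) h1 h2).elim

end

/-- counting the degenerate triples in a product of two finite types -/
theorem card_deg {α β : Type} [Fintype α] [Fintype β] [DecidableEq α] [DecidableEq β] (l : ℕ)
    (hl : 1 ≤ l) (hα : Fintype.card α ≤ l ^ 3) (hβ : Fintype.card β ≤ l) :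
    ((univ : Finset ((α × β) × (α × β) × (α × β))).filter fun t =>
      t.1 = t.2.1 ∨ t.2.1 = t.2.2 ∨ t.2.2 = t.1 ∨
        (t.1.1 = t.2.1.1 ∧ t.2.1.1 = t.2.2.1)).card ≤ 4 * l ^ 8 := by
  classical
  have hT : Fintype.card ((α × β) × (α × β)) ≤ l ^ 8 := by
    simp only [Fintype.card_prod]
    calc _ ≤ l ^ 3 * l * (l ^ 3 * l) := by gcongr
      _ = l ^ 8 := by ring
  have hU : Fintype.card (α × β × β × β) ≤ l ^ 8 := by
    simp only [Fintype.card_prod]
    calc _ ≤ l ^ 3 * (l * (l * l)) := by gcongr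
      _ = l ^ 6 := by ring
      _ ≤ l ^ 8 := Nat.pow_le_pow_right hl (by norm_num)
  let f1 : (α × β) × (α × β) → (α × β) × (α × β) × (α × β) := fun s => (s.1, s.1, s.2)
  let f2 : (α × β) × (α × β) → (α × β) × (α × β) × (α × β) := fun s => (s.1, s.2, s.2)
  let f3 : (α × β) × (α × β) → (α × β) × (α × β) × (α × β) := fun s => (s.1, s.2, s.1)
  let f4 : α × β × β × β → (α × β) × (α × β) × (α × β) :=
    fun s => ((s.1, s.2.1), (s.1, s.2.2.1), (s.1, s.2.2.2))
  calc _ ≤ (univ.image f1 ∪ univ.image f2 ∪ univ.image f3 ∪ univ.image f4).card := by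
        refine card_le_card fun t ht => ?_
        obtain ⟨⟨a, x⟩, ⟨b, y⟩, ⟨c, z⟩⟩ := t
        simp only [mem_filter, mem_univ, true_and] at ht
        simp only [mem_union, mem_image, mem_univ, true_and]
        rcases ht with h | h | h | ⟨h, h'⟩
        · exact Or.inl (Or.inl (Or.inl ⟨((a, x), (c, z)), by simp only [f1, h]⟩))
        · exact Or.inl (Or.inl (Or.inr ⟨((a, x), (c, z)), by simp only [f2, h]⟩))
        · exact Or.inl (Or.inr ⟨((a, x), (b, y)), by simp only [f3, h]⟩)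
        · exact Or.inr ⟨(a, x, y, z), by simp only [f4, h, h']⟩
    _ ≤ (univ.image f1).card + (univ.image f2).card + (univ.image f3).card +
          (univ.image f4).card :=
        (card_union_le _ _).trans (Nat.add_le_add_right ((card_union_le _ _).trans
          (Nat.add_le_add_right (card_union_le _ _) _)) _)
    _ ≤ l ^ 8 + l ^ 8 + l ^ 8 + l ^ 8 := by
        gcongr
        · exact card_image_le.trans hT
        · exact card_image_le.trans hT
        · exact card_image_le.trans hT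
        · exact card_image_le.trans hU
    _ = 4 * l ^ 8 := by ring

/-- the local set on 32 planes at a split prime -/
theorem local32 (d : ℤ) (l : ℕ) (hl : l.Prime) (h5 : 5 ≤ l) (ρ : ZMod l)
    (hr : ρ * ρ = (d : ZMod l)) (h0 : ρ ≠ 0) :
    ∃ S : Finset (Jx ⊕ Jx → ZMod l × ZMod l), S.card = l ^ 31 * (l - 1) ∧
      ∃ Z : Finset ((Jx ⊕ Jx → ZMod l × ZMod l) × (Jx ⊕ Jx → ZMod l × ZMod l) ×
        (Jx ⊕ Jx → ZMod l × ZMod l)), Z.card ≤ 4 * l ^ 92 ∧
        ∀ z q y : Jx ⊕ Jx → ℤ√d, cls l z ∈ S → cls l q ∈ S → cls l y ∈ S →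
          (l : ℤ√d) ∣ om (q - z) (y - z) → (cls l z, cls l q, cls l y) ∈ Z := by
  classical
  have : Fact l.Prime := ⟨hl⟩
  have h3 : (3 : ZMod l) ≠ 0 := three_ne l (by omega)
  have h2 : (2 : ZMod l) ≠ 0 := by
    intro h
    have h' : ((2 : ℕ) : ZMod l) = 0 := by exact_mod_cast h
    rw [ZMod.natCast_eq_zero_iff] at h'
    have := Nat.le_of_dvd (by norm_num) h'
    omega
  have : Fintype (Lab l) := Fintype.ofFinite _
  have hL : Fintype.card (Lab l) = l ^ 3 := by rw [← Nat.card_eq_fintype_card, card_lab]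
  have hU : Fintype.card (ZMod l)ˣ = l - 1 := ZMod.card_units l
  have hF : Fintype.card (Idle → ZMod l) = l ^ 28 := by
    rw [Fintype.card_fun, ZMod.card]
    simp [Fintype.card_option, Fintype.card_prod]
  let D : Finset ((Lab l × (ZMod l)ˣ) × (Lab l × (ZMod l)ˣ) × (Lab l × (ZMod l)ˣ)) :=
    univ.filter fun t => t.1 = t.2.1 ∨ t.2.1 = t.2.2 ∨ t.2.2 = t.1 ∨
      (t.1.1 = t.2.1.1 ∧ t.2.1.1 = t.2.2.1)
  have hD : D.card ≤ 4 * l ^ 8 := card_deg l (by omega) hL.le (by omega)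
  refine ⟨univ.image (cl ρ), ?_,
    (D ×ˢ (univ : Finset ((Idle → ZMod l) × (Idle → ZMod l) × (Idle → ZMod l)))).image
      fun s => (cl ρ (s.1.1, s.2.1), cl ρ (s.1.2.1, s.2.2.1), cl ρ (s.1.2.2, s.2.2.2)), ?_, ?_⟩
  · rw [card_image_of_injective _ (cl_injective h2 h0), card_univ, Fintype.card_prod,
      Fintype.card_prod, hL, hU, hF]
    ring
  · refine card_image_le.trans ?_
    rw [card_product, card_univ, Fintype.card_prod, Fintype.card_prod, hF]
    calc _ ≤ 4 * l ^ 8 * (l ^ 28 * (l ^ 28 * l ^ 28)) := by gcongr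
      _ = 4 * l ^ 92 := by ring
  · intro z q y hz hq hy h
    rw [mem_image] at hz hq hy
    obtain ⟨A, -, ha⟩ := hz
    obtain ⟨B, -, hb⟩ := hq
    obtain ⟨C, -, hc⟩ := hy
    have hr' : (-ρ) * (-ρ) = (d : ZMod l) := by rw [neg_mul_neg, hr]
    obtain ⟨t, ht⟩ := h
    have e1 : phi ρ hr (om (q - z) (y - z)) = 0 := by rw [ht, map_mul, map_natCast]; simp
    have e2 : phi (-ρ) hr' (om (q - z) (y - z)) = 0 := by rw [ht, map_mul, map_natCast]; simp
    rw [om_sub3, map_add, map_add, om_p hr h2 h0 ha.symm hb.symm, om_p hr h2 h0 hb.symm hc.symm,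
      om_p hr h2 h0 hc.symm ha.symm] at e1
    rw [om_sub3, map_add, map_add, om_q hr' h2 h0 ha.symm hb.symm,
      om_q hr' h2 h0 hb.symm hc.symm, om_q hr' h2 h0 hc.symm ha.symm] at e2
    have hdeg : Deg (A.1, B.1, C.1) := deg_of h3 e1 e2
    refine mem_image.2 ⟨((A.1, B.1, C.1), (A.2, B.2, C.2)), ?_, ?_⟩
    · exact mem_product.2 ⟨mem_filter.2 ⟨mem_univ _, hdeg⟩, mem_univ _⟩
    · simp only [← ha, ← hb, ← hc]

end Vale.Agent.N036W
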