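import Vale.Agent.P036.QF.Arith

/-!
# P036: a prime `p > N` of size `exp (O (log N)^2)` modulo which `d` is a square

Chebyshev's argument for the values of `4 d z^2 - 1`.
-/

namespace Vale.Agent.N036W

open Finset Vale.Agent.P036.QF

theorem two_classes {D z y : ℤ} {p k : ℕ} (hp : p.Prime) (hk : 0 < k)
    (hz : (p:ℤ) ^ k ∣ 4 * D * z ^ 2 - 1) (hy : (p:ℤ) ^ k ∣ 4 * D * y ^ 2 - 1) :
    (p:ℤ) ^ k ∣ z - y ∨ (p:ℤ) ^ k ∣ z - -y := by
  have hP : Prime (p:ℤ) := Nat.prime_iff_prime_int.1 hp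
  have h1 : (p:ℤ) ∣ 4 * D * z ^ 2 - 1 := (dvd_pow_self _ hk.ne').trans hz
  have h2 : ∀ a b : ℤ, 4 * D * z ^ 2 = a * b → ¬ (p:ℤ) ∣ a := fun a b hab h =>
    hP.not_dvd_one (by
      have := dvd_sub (h.mul_right b) h1
      rwa [← hab, sub_sub_cancel] at this)
  have h3 : (p:ℤ) ^ k ∣ (4 * D) * ((z - y) * (z - -y)) := by
    have := dvd_sub hz hy
    rwa [show 4 * D * z ^ 2 - 1 - (4 * D * y ^ 2 - 1) = (4 * D) * ((z - y) * (z - -y)) by ring]
      at this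
  have h4 := hP.pow_dvd_of_dvd_mul_left k (h2 (4 * D) (z ^ 2) rfl) h3
  by_cases h5 : (p:ℤ) ∣ z - y
  · left
    refine hP.pow_dvd_of_dvd_mul_right k (fun h6 => h2 (2 * z) (2 * D * z) (by ring) ?_) h4
    have := dvd_add h5 h6
    rwa [show z - y + (z - -y) = 2 * z by ring] at this
  · exact Or.inr (hP.pow_dvd_of_dvd_mul_left k h5 h4)

theorem cnt_class (X : ℤ) (hX : 0 ≤ X) (q : ℤ) (hq : 0 < q) (c : ℤ) :
    (((Ioc X (2 * X)).filter fun z => q ∣ z - c).card : ℝ) ≤ X / q + 1 := by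
  have h := Int.Ioc_filter_modEq_card X (2 * X) hq c
  have e : ((Ioc X (2 * X)).filter fun z => q ∣ z - c) =
      (Ioc X (2 * X)).filter fun z => z ≡ c [ZMOD q] :=
    filter_congr fun z _ => by rw [Int.modEq_comm, Int.modEq_iff_dvd]
  have hq' : (0:ℚ) < q := by exact_mod_cast hq
  have hX' : (0:ℚ) ≤ X := by exact_mod_cast hX
  have h2 : (((Ioc X (2 * X)).filter fun z => q ∣ z - c).card : ℚ) ≤ X / q + 1 := by
    rw [e, ← Int.cast_natCast, h, Int.cast_max]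
    refine max_le ?_ (by push_cast; positivity)
    have a1 := Int.floor_le ((((2 * X : ℤ) : ℚ) - c) / q)
    have a2 := Int.lt_floor_add_one (((X : ℚ) - c) / q)
    have a3 : (((2 * X : ℤ) : ℚ) - c) / q - ((X : ℚ) - c) / q = X / q := by push_cast; ring
    push_cast at a1 a2 a3 ⊢
    linarith
  have := (Rat.cast_le (K := ℝ)).2 h2
  push_cast at this
  exact this

theorem cnt_roots (D X : ℤ) (hX : 0 ≤ X) {p k : ℕ} (hp : p.Prime) (hk : 0 < k) :
    (((Ioc X (2 * X)).filter fun z => (p:ℤ) ^ k ∣ 4 * D * z ^ 2 - 1).card : ℝ) ≤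
      2 * (X * (p:ℝ)⁻¹ ^ k + 1) := by
  have hq : (0:ℤ) < (p:ℤ) ^ k := by have := hp.pos; positivity
  have hX' : (0:ℝ) ≤ X := by exact_mod_cast hX
  rcases ((Ioc X (2 * X)).filter fun z => (p:ℤ) ^ k ∣ 4 * D * z ^ 2 - 1).eq_empty_or_nonempty
    with he | ⟨y, hy⟩
  · rw [he, card_empty, Nat.cast_zero]
    positivity
  have hs : ((Ioc X (2 * X)).filter fun z => (p:ℤ) ^ k ∣ 4 * D * z ^ 2 - 1) ⊆
      ((Ioc X (2 * X)).filter fun z => (p:ℤ) ^ k ∣ z - y) ∪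
        (Ioc X (2 * X)).filter fun z => (p:ℤ) ^ k ∣ z - -y := by
    intro z hz
    rw [mem_filter] at hz
    rw [mem_union, mem_filter, mem_filter]
    exact (two_classes hp hk hz.2 (mem_filter.1 hy).2).imp (⟨hz.1, ·⟩) (⟨hz.1, ·⟩)
  have h1 := cnt_class X hX _ hq y
  have h2 := cnt_class X hX _ hq (-y)
  have h3 := (Nat.cast_le (α := ℝ)).2 ((card_le_card hs).trans (card_union_le _ _))
  push_cast at h1 h2 h3
  rw [inv_pow, ← div_eq_mul_inv]
  linarith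

theorem omega_ge {n L K T : ℕ} (hn : 2 ^ (L * T) ≤ n) (hK : n < 2 ^ K) (hL : 0 < L)
    (h : ∀ p : ℕ, p.Prime → p ∣ n → p < 2 ^ L) :
    T ≤ ∑ p ∈ (Icc 1 (2 ^ L)).filter Nat.Prime, ((Ico 1 K).filter fun i => p ^ i ∣ n).card := by
  have hn0 : 0 < n := lt_of_lt_of_le (by positivity) hn
  have h1 : n ≤ 2 ^ (L * ∑ p ∈ n.primeFactors, n.factorization p) := by
    conv_lhs => rw [← Nat.prod_factorization_pow_eq_self hn0.ne']
    rw [pow_mul, ← prod_pow_eq_pow_sum, Finsupp.prod, Nat.support_factorization]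
    refine prod_le_prod' fun p hp => Nat.pow_le_pow_left ?_ _
    exact (h p (Nat.prime_of_mem_primeFactors hp) (Nat.dvd_of_mem_primeFactors hp)).le
  have h2 : T ≤ ∑ p ∈ n.primeFactors, n.factorization p :=
    Nat.le_of_mul_le_mul_left ((Nat.pow_le_pow_iff_right one_lt_two).1 (hn.trans h1)) hL
  refine h2.trans ((sum_congr rfl fun p hp => ?_).trans_le
    (sum_le_sum_of_subset (s := n.primeFactors) fun p hp => ?_))
  · have hp' := Nat.prime_of_mem_primeFactors hp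
    exact Nat.factorization_eq_card_pow_dvd_of_lt hp' hn0
      (hK.trans_le (Nat.pow_le_pow_left hp'.two_le _))
  · have hp' := Nat.prime_of_mem_primeFactors hp
    exact mem_filter.2 ⟨mem_Icc.2 ⟨hp'.pos, (h p hp' (Nat.dvd_of_mem_primeFactors hp)).le⟩, hp'⟩

theorem prime_sq_nat {d : ℤ} (hd : Good d) (L : ℕ) (hL : 2 ≤ L) :
    ∃ p : ℕ, p.Prime ∧ 2 ^ L ≤ p ∧ p < 2 ^ (10 * L ^ 2 + 7) ∧ ∃ r : ZMod p, r * r = d := by
  by_contra hcon
  set X : ℤ := 2 ^ (5 * L ^ 2) with hX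
  set K := 10 * L ^ 2 + 7 with hK
  have hX0 : 0 < X := by positivity
  have hd2 := hd.two_le
  have hd6 := hd.le_six
  have hXK : (2:ℤ) ^ K = 128 * X ^ 2 := by rw [hK, hX, ← pow_mul, pow_add]; ring
  have key : ∀ z ∈ Ioc X (2 * X), 10 * L ≤ ∑ p ∈ (Icc 1 (2 ^ L)).filter Nat.Prime,
      ((Ico 1 K).filter fun i => (p:ℤ) ^ i ∣ 4 * d * z ^ 2 - 1).card := by
    intro z hz
    rw [mem_Ioc] at hz
    have a1 : X ^ 2 ≤ z ^ 2 := pow_le_pow_left₀ hX0.le hz.1.le 2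
    have a2 : z ^ 2 ≤ (2 * X) ^ 2 := pow_le_pow_left₀ (by linarith) hz.2 2
    have a0 : 0 < X ^ 2 := by positivity
    have a3 : X ^ 2 ≤ 4 * d * z ^ 2 - 1 := by nlinarith
    have a4 : 4 * d * z ^ 2 - 1 < 2 ^ K := by rw [hXK]; nlinarith
    obtain ⟨n, hn⟩ := Int.eq_ofNat_of_zero_le (a0.le.trans a3)
    have b1 : n < 2 ^ K := by rw [hn] at a4; exact_mod_cast a4
    have b2 : 2 ^ (L * (10 * L)) ≤ n := by
      rw [hn, hX, ← pow_mul, show 5 * L ^ 2 * 2 = L * (10 * L) by ring] at a3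
      exact_mod_cast a3
    have := omega_ge b2 b1 (by omega) fun p hp hpn => by
      by_contra h
      refine hcon ⟨p, hp, not_lt.1 h, (Nat.le_of_dvd (lt_of_lt_of_le (by positivity) b2)
        hpn).trans_lt b1, 2 * d * z, ?_⟩
      have c1 : ((4 * d * z ^ 2 - 1 : ℤ) : ZMod p) = 0 := by
        rw [hn, Int.cast_natCast, ZMod.natCast_eq_zero_iff]
        exact hpn
      push_cast at c1
      linear_combination (d : ZMod p) * c1
    refine this.trans_eq (sum_congr rfl fun p _ => congrArg card (filter_congr fun i _ => ?_))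
    rw [hn, ← Nat.cast_pow, Int.natCast_dvd_natCast]
  have h1 := (Nat.cast_le (α := ℝ)).2 (card_nsmul_le_sum _ _ _ key)
  rw [sum_comm] at h1
  simp only [card_filter] at h1
  have hXr : (0:ℝ) < X := by exact_mod_cast hX0
  have h2 : ∀ p ∈ (Icc 1 (2 ^ L)).filter Nat.Prime, ((∑ z ∈ Ioc X (2 * X), ∑ i ∈ Ico 1 K,
      if (p:ℤ) ^ i ∣ 4 * d * z ^ 2 - 1 then 1 else 0 : ℕ) : ℝ) ≤ 4 * X * (p:ℝ)⁻¹ + 2 * K := by
    intro p hp
    have hp' := (mem_filter.1 hp).2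
    have p2 : (2:ℝ) ≤ p := by exact_mod_cast hp'.two_le
    have i2 : (p:ℝ)⁻¹ ≤ 1 / 2 := by rw [one_div]; gcongr
    have i0 : (0:ℝ) < (p:ℝ)⁻¹ := by positivity
    rw [sum_comm, Nat.cast_sum]
    refine (sum_le_sum (g := fun i => 2 * (X * (p:ℝ)⁻¹ ^ i + 1)) fun i hi => ?_).trans ?_
    · rw [← card_filter]
      exact cnt_roots d X hX0.le hp' (mem_Ico.1 hi).1
    · rw [← mul_sum, sum_add_distrib, ← mul_sum, sum_const, Nat.card_Ico, nsmul_eq_mul, mul_one]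
      have g := geom_sum_Ico_le_of_lt_one (m := 1) (n := K) i0.le (by linarith : (p:ℝ)⁻¹ < 1)
      have g2 : (p:ℝ)⁻¹ ^ 1 / (1 - (p:ℝ)⁻¹) ≤ 2 * (p:ℝ)⁻¹ := by
        rw [div_le_iff₀ (by linarith)]
        nlinarith
      have g3 : ((K - 1 : ℕ) : ℝ) ≤ K := by exact_mod_cast Nat.sub_le K 1
      nlinarith [mul_le_mul_of_nonneg_left (g.trans g2) hXr.le]
  rw [Nat.cast_sum] at h1
  have h3 := h1.trans ((sum_le_sum h2).trans (sum_le_sum_of_subset_of_nonneg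
    (filter_subset _ _) fun i _ _ => by positivity))
  have h4 := harmonic_le_one_add_log (2 ^ L)
  rw [harmonic_eq_sum_Icc] at h4
  push_cast at h4
  rw [Real.log_pow] at h4
  have h5 : Real.log 2 < 1 := by linarith [Real.log_two_lt_d9]
  rw [sum_add_distrib, ← mul_sum, sum_const, Nat.card_Icc, Int.card_Ioc, smul_eq_mul,
    show 2 * X - X = X by ring, Nat.add_sub_cancel, nsmul_eq_mul, Nat.cast_mul,
    ← Int.cast_natCast X.toNat, Int.toNat_of_nonneg hX0.le] at h3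
  have h6 : 2 ^ L * K ≤ 2 ^ (5 * L ^ 2) := by
    have c1 : L ^ 2 + 1 ≤ 2 ^ (L ^ 2) := Nat.lt_two_pow_self
    have c2 : 4 ≤ L ^ 2 := by nlinarith
    calc 2 ^ L * K ≤ 2 ^ (L ^ 2) * (5 ^ 3 * (L ^ 2 + 1)) := by
          gcongr
          · norm_num
          · nlinarith
          · omega
      _ ≤ 2 ^ (L ^ 2) * ((2 ^ (L ^ 2)) ^ 3 * 2 ^ (L ^ 2)) := by gcongr; omega
      _ = _ := by ring
  have h7 : ((2 ^ L : ℕ) : ℝ) * K ≤ X := by rw [hX]; exact_mod_cast h6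
  have hL' : (2:ℝ) ≤ L := by exact_mod_cast hL
  push_cast at h3 h7
  have h8 : (L:ℝ) * Real.log 2 ≤ L := by nlinarith
  nlinarith [mul_le_mul_of_nonneg_left (h4.trans (by linarith : _ ≤ 1 + (L:ℝ))) hXr.le]

theorem prime_sq {d : ℤ} (hd : Good d) : ∃ N0 : ℕ, ∀ N ≥ N0,
    ∃ p : ℕ, p.Prime ∧ N < p ∧ Real.log p ≤ 40 * Real.log N ^ 2 ∧ ∃ r : ZMod p, r * r = d := by
  refine ⟨2000, fun N hN => ?_⟩
  have h0 : 10 ≤ Nat.log 2 N := Nat.le_log_of_pow_le one_lt_two (by omega)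
  have h4 := Nat.lt_pow_succ_log_self one_lt_two N
  have h5 := Nat.pow_log_le_self 2 (by omega : N ≠ 0)
  generalize Nat.log 2 N = L at h0 h4 h5
  obtain ⟨p, hp, h1, h2, h3⟩ := prime_sq_nat hd (L + 1) (by omega)
  refine ⟨p, hp, h4.trans_le h1, ?_, h3⟩
  have a1 : Real.log p ≤ (10 * ((L:ℝ) + 1) ^ 2 + 7) * Real.log 2 := by
    have : (p:ℝ) ≤ 2 ^ (10 * (L + 1) ^ 2 + 7) := by exact_mod_cast h2.le
    have := Real.log_le_log (by exact_mod_cast hp.pos) this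
    rw [Real.log_pow] at this
    exact_mod_cast this
  have a2 : (L:ℝ) * Real.log 2 ≤ Real.log N := by
    have : (2:ℝ) ^ L ≤ N := by exact_mod_cast h5
    have := Real.log_le_log (by positivity) this
    rwa [Real.log_pow] at this
  have a3 : (10:ℝ) ≤ L := by exact_mod_cast h0
  clear h0 h1 h2 h3 h4 h5 hN
  have l1 : 2 / 3 ≤ Real.log 2 := by linarith [Real.log_two_gt_d9]
  have l2 : Real.log 2 ≤ 1 := by linarith [Real.log_two_lt_d9]
  have a4 : 2 / 3 * (L:ℝ) ≤ Real.log N := by nlinarith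
  have a5 : (2 / 3 * (L:ℝ)) ^ 2 ≤ Real.log N ^ 2 := pow_le_pow_left₀ (by positivity) a4 2
  have a6 : (10 * ((L:ℝ) + 1) ^ 2 + 7) * Real.log 2 ≤ 10 * ((L:ℝ) + 1) ^ 2 + 7 :=
    mul_le_of_le_one_right (by positivity) l2
  nlinarith

end Vale.Agent.N036W
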