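import Mathlib
import Vale.Agent.P036.QF.E
import Vale.Agent.P036.QF.I
import Vale.Agent.P036.QF.K1
import Vale.Agent.N036W.Loc
import Vale.Agent.N036W.Col
import Vale.Agent.N036W.Core
import Vale.Agent.N036W.Prime

/-!
# P036: choice of parameters on 32 planes at a split prime
-/

namespace Vale.Agent.N036W

open Finset Filter Vale.Agent.P036 Vale.Agent.P036.QF

theorem numA1 (t l p n C s k q a b y ν : ℕ) (ht : 1 ≤ t) (hl2 : l ≤ 2 * t ^ q)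
    (hs : l ^ 32 ≤ 2 * s) (hp2 : p ≤ C * (l * t ^ a * k) ^ 4) (hn : n ≤ t ^ ν)
    (hB : 4 * C ^ 33 * 2 ^ 96 ≤ t) (h1 : ν + 96 * q + a + 1 ≤ 4 * y + b) :
    2 * (n * p ^ 33) ≤ (l * t ^ a * k * t ^ y) ^ 4 * (s * ((t ^ a * k) ^ 127 * (t ^ b * k))) := by
  obtain ⟨R, hR⟩ : ∃ R, R = l ^ 4 * (t ^ a) ^ 131 * k ^ 132 := ⟨_, rfl⟩
  calc 2 * (n * p ^ 33) ≤ 2 * (t ^ ν * (C * (l * t ^ a * k) ^ 4) ^ 33) := by gcongr
    _ = 2 * C ^ 33 * l ^ 96 * l ^ 32 * (t ^ ν * t ^ a) * R := by rw [hR]; ring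
    _ ≤ 2 * C ^ 33 * (2 * t ^ q) ^ 96 * (2 * s) * (t ^ ν * t ^ a) * R := by gcongr
    _ = (4 * C ^ 33 * 2 ^ 96) * ((t ^ q) ^ 96 * t ^ ν * t ^ a) * (s * R) := by
        rw [mul_pow 2 (t ^ q)]; ring
    _ ≤ t * ((t ^ q) ^ 96 * t ^ ν * t ^ a) * (s * R) := by gcongr
    _ = t ^ (1 + (q * 96 + ν + a)) * (s * R) := by
        rw [pow_add, pow_add, pow_add, pow_mul, pow_one]
    _ ≤ t ^ (y * 4 + b) * (s * R) :=
        Nat.mul_le_mul_right _ (Nat.pow_le_pow_right ht (by omega))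
    _ = _ := by rw [pow_add, pow_mul, hR]; ring

theorem numA2 (t l p G s k q a b y : ℕ) (ht : 1 ≤ t) (hl1 : t ^ q ≤ l)
    (hs : l ^ 32 ≤ 2 * s) (hp1 : (l * t ^ a * k) ^ 4 ≤ p) (hG : 32 * G ≤ t)
    (h2 : 4 * y + 2 * b + 1 ≤ 196 * q + 2 * a) :
    4 * ((l * t ^ a * k * t ^ y) ^ 4 * G) * (4 * l ^ 92) *
      ((t ^ a * k) ^ 127 * (t ^ b * k)) ^ 2 ≤ s * p ^ 65 := by
  obtain ⟨R, hR⟩ : ∃ R, R = l ^ 96 * (t ^ a) ^ 258 * k ^ 260 := ⟨_, rfl⟩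
  refine Nat.le_of_mul_le_mul_left ?_ (by norm_num : 0 < 2)
  calc 2 * (4 * ((l * t ^ a * k * t ^ y) ^ 4 * G) * (4 * l ^ 92) *
        ((t ^ a * k) ^ 127 * (t ^ b * k)) ^ 2)
      = (32 * G) * ((t ^ y) ^ 4 * (t ^ b) ^ 2) * R := by rw [hR]; ring
    _ ≤ t * ((t ^ y) ^ 4 * (t ^ b) ^ 2) * R := by gcongr
    _ = t ^ (1 + (y * 4 + b * 2)) * R := by
        rw [pow_add, pow_add, pow_mul, pow_mul, pow_one]
    _ ≤ t ^ (q * 196 + a * 2) * R :=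
        Nat.mul_le_mul_right _ (Nat.pow_le_pow_right ht (by omega))
    _ = (t ^ q) ^ 196 * (t ^ a) ^ 2 * R := by rw [pow_add, pow_mul, pow_mul]
    _ ≤ l ^ 196 * (t ^ a) ^ 2 * R := by gcongr
    _ = l ^ 32 * ((l * t ^ a * k) ^ 4) ^ 65 := by rw [hR]; ring
    _ ≤ (2 * s) * p ^ 65 := by gcongr
    _ = 2 * (s * p ^ 65) := by ring

theorem numT1 (t l G c k q a b e y μ : ℕ) (ht : 1 ≤ t) (hl1 : t ^ q ≤ l) (hG : c * G ≤ t)
    (h3 : 4 * y + 63 * e + b + 2 * μ + 1 ≤ 96 * q + 64 * a) :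
    c * ((l * t ^ a * k * t ^ y) ^ 4 * G) * (l ^ 32 * ((t ^ a * k) * (t ^ e * k)) ^ 63 *
      ((t ^ a * k) * (t ^ b * k)) * (t ^ μ) ^ 2) ≤ ((l * t ^ a * k) ^ 4) ^ 33 := by
  obtain ⟨R, hR⟩ : ∃ R, R = l ^ 36 * (t ^ a) ^ 68 * k ^ 132 := ⟨_, rfl⟩
  calc _ = (c * G) * ((t ^ y) ^ 4 * (t ^ e) ^ 63 * t ^ b * (t ^ μ) ^ 2) * R := by rw [hR]; ring
    _ ≤ t * ((t ^ y) ^ 4 * (t ^ e) ^ 63 * t ^ b * (t ^ μ) ^ 2) * R := by gcongr
    _ = t ^ (1 + (y * 4 + e * 63 + b + μ * 2)) * R := by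
        rw [pow_add, pow_add, pow_add, pow_add, pow_mul, pow_mul, pow_mul, pow_one]
    _ ≤ t ^ (q * 96 + a * 64) * R :=
        Nat.mul_le_mul_right _ (Nat.pow_le_pow_right ht (by omega))
    _ = (t ^ q) ^ 96 * (t ^ a) ^ 64 * R := by rw [pow_add, pow_mul, pow_mul]
    _ ≤ l ^ 96 * (t ^ a) ^ 64 * R := by gcongr
    _ = _ := by rw [hR]; ring

theorem numT2 (t l G c k a g y : ℕ) (ht : 1 ≤ t) (hG : c * G ≤ t)
    (h4 : 4 * y + 124 * g + 1 ≤ 124 * a) :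
    c * ((l * t ^ a * k * t ^ y) ^ 4 * G) * ((l * t ^ a * k) ^ 4 * (l * t ^ g * k) ^ 124) ≤
      ((l * t ^ a * k) ^ 4) ^ 33 := by
  obtain ⟨R, hR⟩ : ∃ R, R = l ^ 132 * (t ^ a) ^ 8 * k ^ 132 := ⟨_, rfl⟩
  calc _ = (c * G) * ((t ^ y) ^ 4 * (t ^ g) ^ 124) * R := by rw [hR]; ring
    _ ≤ t * ((t ^ y) ^ 4 * (t ^ g) ^ 124) * R := by gcongr
    _ = t ^ (1 + (y * 4 + g * 124)) * R := by
        rw [pow_add, pow_add, pow_mul, pow_mul, pow_one]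
    _ ≤ t ^ (a * 124) * R :=
        Nat.mul_le_mul_right _ (Nat.pow_le_pow_right ht (by omega))
    _ = _ := by rw [pow_mul, hR]; ring

theorem numA3 (t M G y : ℕ) (hM : 1 ≤ M) (hy : t ^ y ≤ M) (ht : t ≤ M) (hG : 8 * G ≤ t) :
    8 * ((M * t ^ y) ^ 4 * G) ≤ (M ^ 4) ^ 33 := by
  calc 8 * ((M * t ^ y) ^ 4 * G) = (8 * G) * (M * t ^ y) ^ 4 := by ring
    _ ≤ M * (M * M) ^ 4 := by gcongr; exact hG.trans ht
    _ = M ^ 9 := by ring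
    _ ≤ M ^ (4 * 33) := Nat.pow_le_pow_right hM (by norm_num)
    _ = _ := pow_mul _ _ _

/-- assembling the four inequalities -/
theorem numMain (n p E y s B κ Col : ℕ) (A1 : 2 * (n * p ^ 33) ≤ y * (s * κ))
    (A2 : 4 * E * B * κ ^ 2 ≤ s * p ^ 65) (A3 : 8 * E ≤ p ^ 33)
    (A4 : 8 * E * Col ≤ s * κ * p ^ 33) :
    n * 1 ^ 3 * p ^ 98 + E * y * (B * κ ^ 3) + E * y * (s * κ + Col) * p ^ 32 ≤
      1 ^ 2 * (y * (s * κ)) * p ^ 65 := by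
  obtain ⟨R, hR⟩ : ∃ R, R = y * (s * κ) * p ^ 65 := ⟨_, rfl⟩
  have B1 : 2 * (n * p ^ 98) ≤ R := by
    calc 2 * (n * p ^ 98) = 2 * (n * p ^ 33) * p ^ 65 := by ring
      _ ≤ y * (s * κ) * p ^ 65 := by gcongr
      _ = R := hR.symm
  have B2 : 4 * (E * y * (B * κ ^ 3)) ≤ R := by
    calc 4 * (E * y * (B * κ ^ 3)) = y * κ * (4 * E * B * κ ^ 2) := by ring
      _ ≤ y * κ * (s * p ^ 65) := by gcongr
      _ = R := by rw [hR]; ring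
  have B3 : 8 * (E * y * (s * κ) * p ^ 32) ≤ R := by
    calc 8 * (E * y * (s * κ) * p ^ 32) = y * (s * κ) * (8 * E * p ^ 32) := by ring
      _ ≤ y * (s * κ) * (p ^ 33 * p ^ 32) := by gcongr
      _ = R := by rw [hR]; ring
  have B4 : 8 * (E * y * Col * p ^ 32) ≤ R := by
    calc 8 * (E * y * Col * p ^ 32) = y * (8 * E * Col) * p ^ 32 := by ring
      _ ≤ y * (s * κ * p ^ 33) * p ^ 32 := by gcongr
      _ = R := by rw [hR]; ring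
  have e1 : n * 1 ^ 3 * p ^ 98 + E * y * (B * κ ^ 3) + E * y * (s * κ + Col) * p ^ 32 =
      n * p ^ 98 + E * y * (B * κ ^ 3) + E * y * (s * κ) * p ^ 32 +
        E * y * Col * p ^ 32 := by ring
  have e2 : 1 ^ 2 * (y * (s * κ)) * p ^ 65 = R := by rw [hR]; ring
  rw [e1, e2]
  omega

/-- growth condition -/
theorem growth2 (B CE D : ℕ) : ∀ᶠ t : ℕ in atTop,
    B * ⌈(CE:ℝ) * (1 + D * Real.log t ^ 2)⌉₊ ≤ t := by
  have hc : ∀ C : ℝ, ∀ᶠ t : ℕ in atTop, C ≤ (t:ℝ) := fun C =>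
    tendsto_natCast_atTop_atTop.eventually (eventually_ge_atTop C)
  have hδ : (0:ℝ) < 1 / (2 * ((B:ℝ) * CE * D + 1)) := by positivity
  have h1 := (Real.isLittleO_pow_log_id_atTop (n := 2)).bound hδ
  filter_upwards [tendsto_natCast_atTop_atTop.eventually h1, hc 1, hc (2 * (B * (CE + 1)))]
    with t hl hl1 hl2
  have hlog : 0 ≤ Real.log t ^ 2 := by positivity
  rw [Real.norm_of_nonneg hlog, id, Real.norm_of_nonneg (by positivity)] at hl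
  have h2 : (⌈(CE:ℝ) * (1 + D * Real.log t ^ 2)⌉₊ : ℝ) ≤ CE * (1 + D * Real.log t ^ 2) + 1 :=
    (Nat.ceil_lt_add_one (by positivity)).le
  have h3 : ((B:ℝ) * CE * D + 1) * Real.log t ^ 2 ≤ t / 2 := by
    calc ((B:ℝ) * CE * D + 1) * Real.log t ^ 2
        ≤ ((B:ℝ) * CE * D + 1) * (1 / (2 * ((B:ℝ) * CE * D + 1)) * t) := by gcongr
      _ = t / 2 := by field_simp
  have h4 : (B:ℝ) * ⌈(CE:ℝ) * (1 + D * Real.log t ^ 2)⌉₊ ≤ t := by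
    calc (B:ℝ) * ⌈(CE:ℝ) * (1 + D * Real.log t ^ 2)⌉₊
        ≤ B * (CE * (1 + D * Real.log t ^ 2) + 1) := by gcongr
      _ = B * (CE + 1) + (B * CE * D) * Real.log t ^ 2 := by ring
      _ ≤ t := by nlinarith
  exact_mod_cast h4

/-- a multiple of `M₀` whose fourth power is comparable with `p` -/
theorem exists_mult (C M₀ p : ℕ) (hC : 0 < C) (hM : 0 < M₀) (hp : C * M₀ ^ 4 < p) :
    ∃ k : ℕ, 1 ≤ k ∧ C * (M₀ * k) ^ 4 < p ∧ p ≤ 16 * C * (M₀ * k) ^ 4 := by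
  classical
  have hex : ∃ k : ℕ, p ≤ C * (M₀ * (k + 1)) ^ 4 := by
    refine ⟨p, ?_⟩
    calc p ≤ p + 1 := Nat.le_succ p
      _ ≤ M₀ * (p + 1) := Nat.le_mul_of_pos_left _ hM
      _ ≤ (M₀ * (p + 1)) ^ 4 := Nat.le_self_pow (by norm_num) _
      _ ≤ C * (M₀ * (p + 1)) ^ 4 := Nat.le_mul_of_pos_left _ hC
  have h1 := Nat.find_spec hex
  have h0 : Nat.find hex ≠ 0 := by
    intro h
    rw [h, zero_add, mul_one] at h1
    omega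
  obtain ⟨j, hj⟩ := Nat.exists_eq_succ_of_ne_zero h0
  have h2 := Nat.find_min hex (show j < Nat.find hex by omega)
  refine ⟨j + 1, by omega, by omega, ?_⟩
  rw [hj] at h1
  calc p ≤ C * (M₀ * (j.succ + 1)) ^ 4 := h1
    _ ≤ C * (M₀ * (2 * (j + 1))) ^ 4 := by gcongr; omega
    _ = _ := by ring

theorem fin_ineq (M2 T x p A B : ℝ) (hM : 0 < M2) (hT : 0 < T) (hx : 0 ≤ x)
    (hp : 600000000 * M2 ^ 2 ≤ p) (hA : A ≤ M2) (hB : B ≤ 6 * T) (hB0 : 0 ≤ B)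
    (h : p / 2 ≤ (32 * A + 512 * 32 * M2) * (B * x)) : 4 * M2 ≤ T * x := by
  have h1 : (32 * A + 512 * 32 * M2) * (B * x) ≤ (17000 * M2) * (6 * T * x) := by
    apply mul_le_mul _ _ (by positivity) (by positivity)
    · linarith
    · gcongr
  have h2 : M2 * (300000000 * M2) ≤ M2 * (102000 * (T * x)) := by nlinarith
  have h3 := le_of_mul_le_mul_left h2 hM
  have h4 : 0 ≤ T * x := by positivity
  linarith

theorem prime_sq_all : ∃ N0 : ℕ, ∀ d : ℤ, Good d → ∀ N ≥ N0, ∃ p : ℕ, p.Prime ∧ N < p ∧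
    Real.log p ≤ 40 * (Real.log N) ^ 2 ∧ ∃ r : ZMod p, r * r = (d : ZMod p) := by
  obtain ⟨N2, h2⟩ := prime_sq (d := 2) (Or.inl rfl)
  obtain ⟨N3, h3⟩ := prime_sq (d := 3) (Or.inr (Or.inl rfl))
  obtain ⟨N6, h6⟩ := prime_sq (d := 6) (Or.inr (Or.inr rfl))
  refine ⟨N2 + N3 + N6, fun d hd N hN => ?_⟩
  rcases hd with rfl | rfl | rfl
  · exact h2 N (by omega)
  · exact h3 N (by omega)
  · exact h6 N (by omega)

theorem root_ne {l : ℕ} (h7 : 7 ≤ l) {d : ℤ} (hd : Good d) {ρ : ZMod l}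
    (hr : ρ * ρ = (d : ZMod l)) : ρ ≠ 0 := by
  rintro rfl
  rw [mul_zero, eq_comm, ZMod.intCast_zmod_eq_zero_iff_dvd] at hr
  have h1 := Int.le_of_dvd hd.pos hr
  have h2 := hd.le_six
  omega

/-- the collinear triples in natural numbers -/
theorem col_nat {d : ℤ} (hd : Good d) (l t k a b e g μ : ℕ) (hl : 0 < l) (ht : 1 ≤ t)
    (hk : 1 ≤ k) (h5 : a + b ≤ 2 * e) (h6 : b ≤ a) (h7 : g + μ = a)
    (S : Finset (Jx ⊕ Jx → ZMod l × ZMod l)) (hS : S.card ≤ l ^ 32) :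
    (colTriples (WS (.inl none : Jx ⊕ Jx) d (l * t ^ a * k) (l * t ^ b * k) l S)).card ≤
      (WS (.inl none : Jx ⊕ Jx) d (l * t ^ a * k) (l * t ^ b * k) l S).card *
        ((6 * 129 ^ 63 * 33 ^ 2) * (l ^ 32 * ((t ^ a * k) * (t ^ e * k)) ^ 63 *
          ((t ^ a * k) * (t ^ b * k)) * (t ^ μ) ^ 2) +
        (6 * 256 * 3 ^ 127 * 33 ^ 4) * ((l * t ^ a * k) ^ 4 * (l * t ^ g * k) ^ 124)) := by
  have hcJ : Fintype.card (Jx ⊕ Jx) = 61 + 3 := by rw [Fintype.card_sum, card_Jx]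
  have hhM : l * t ^ b * k ≤ l * t ^ a * k := by gcongr
  have hgM : l * t ^ g * k ≤ l * t ^ a * k := by gcongr <;> omega
  have hcol := col_bound hd (.inl none : Jx ⊕ Jx) 61 hcJ (l * t ^ a * k) (l * t ^ b * k) l
    (64 * l * t ^ e * k) (l * t ^ g * k) S hl ⟨t ^ a * k, by ring⟩ ⟨t ^ b * k, by ring⟩
    (by positivity) hhM
    (by
      rw [hcJ]
      have e0 : 0 < l * t ^ b * k := by positivity
      have e1 : l * t ^ b * k + 2 ≤ 3 * (l * t ^ b * k) := by omega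
      have e2 : t ^ a * t ^ b ≤ (t ^ e) ^ 2 := by
        rw [← pow_add, ← pow_mul]; exact Nat.pow_le_pow_right ht (by omega)
      calc 16 * (61 + 3) * (l * t ^ a * k) * (l * t ^ b * k + 2)
          ≤ 16 * (61 + 3) * (l * t ^ a * k) * (3 * (l * t ^ b * k)) := by gcongr
        _ = 3072 * (l * k) ^ 2 * (t ^ a * t ^ b) := by ring
        _ ≤ 4096 * (l * k) ^ 2 * (t ^ e) ^ 2 := by gcongr; norm_num
        _ = (64 * l * t ^ e * k) ^ 2 := by ring)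
    (by positivity) hgM
  have d1 : l * t ^ a * k / l = t ^ a * k := by rw [mul_assoc, Nat.mul_div_cancel_left _ hl]
  have d2 : l * t ^ b * k / l = t ^ b * k := by rw [mul_assoc, Nat.mul_div_cancel_left _ hl]
  have d3 : 2 * (64 * l * t ^ e * k) / l = 128 * (t ^ e * k) := by
    rw [show 2 * (64 * l * t ^ e * k) = l * (128 * (t ^ e * k)) by ring,
      Nat.mul_div_cancel_left _ hl]
  have d4 : (33 * ((l * t ^ a * k : ℕ) : ℝ) / ((l * t ^ g * k : ℕ) : ℝ)) = 33 * (t:ℝ) ^ μ := by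
    have : (0:ℝ) < t := by exact_mod_cast ht
    have : (0:ℝ) < l := by exact_mod_cast hl
    have : (0:ℝ) < k := by exact_mod_cast hk
    rw [← h7]; push_cast; rw [pow_add]; field_simp
  rw [d1, d2, d3, d4] at hcol
  obtain ⟨c1, hc1⟩ : ∃ c1 : ℕ, c1 = 129 ^ 63 := ⟨_, rfl⟩
  obtain ⟨c2, hc2⟩ : ∃ c2 : ℕ, c2 = 3 ^ 127 := ⟨_, rfl⟩
  have d5 : S.card * (t ^ a * k * (128 * (t ^ e * k) + 1)) ^ (61 + 2) * (t ^ a * k * (t ^ b * k)) ≤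
      c1 * (l ^ 32 * ((t ^ a * k) * (t ^ e * k)) ^ 63 * ((t ^ a * k) * (t ^ b * k))) := by
    have e0 : 0 < t ^ e * k := by positivity
    calc _ ≤ l ^ 32 * (t ^ a * k * (129 * (t ^ e * k))) ^ (61 + 2) * (t ^ a * k * (t ^ b * k)) := by
          gcongr; omega
      _ = _ := by
          rw [show t ^ a * k * (129 * (t ^ e * k)) = 129 * (t ^ a * k * (t ^ e * k)) by ring,
            mul_pow 129, ← hc1]
          ring
  have d6 : (3:ℝ) ^ (2 * 61 + 5) = c2 := by rw [hc2, Nat.cast_pow, Nat.cast_ofNat]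
  rw [d6] at hcol
  rw [← hc1, ← hc2]
  rw [mul_assoc S.card] at d5
  have d5' := (Nat.cast_le (α := ℝ)).2 d5
  refine (Nat.cast_le (α := ℝ)).1 (hcol.trans ?_)
  calc _ ≤ 6 * ((WS (.inl none : Jx ⊕ Jx) d (l * t ^ a * k) (l * t ^ b * k) l S).card : ℝ) *
        (((c1 * (l ^ 32 * ((t ^ a * k) * (t ^ e * k)) ^ 63 * ((t ^ a * k) * (t ^ b * k))) : ℕ) : ℝ) *
          (33 * (t:ℝ) ^ μ) ^ 2 + 2 * (2 * (61:ℕ) + 6) * c2 * 33 ^ 4 *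
          ((l * t ^ a * k : ℕ) : ℝ) ^ 4 * ((l * t ^ g * k : ℕ) : ℝ) ^ (2 * 61 + 2)) := by
        gcongr
    _ = _ := by push_cast; ring

/-- the geometric part: from the counting inequality to the bound for `Δ(n)` -/
theorem from_core {d : ℤ} (hd : Good d) {p : ℕ} [Fact p.Prime] (r : ZMod p)
    (hr : r * r = (d : ZMod p)) (l M h v n E Col κ B : ℕ)
    (S : Finset (Jx ⊕ Jx → ZMod l × ZMod l))
    (Z : Finset ((Jx ⊕ Jx → ZMod l × ZMod l) × (Jx ⊕ Jx → ZMod l × ZMod l) ×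
      (Jx ⊕ Jx → ZMod l × ZMod l))) (hZ1 : Z.card ≤ B)
    (hZ2 : ∀ z q y : Jx ⊕ Jx → ℤ√d, cls l z ∈ S → cls l q ∈ S → cls l y ∈ S →
      (l : ℤ√d) ∣ om (q - z) (y - z) → (cls l z, cls l q, cls l y) ∈ Z)
    (hl : 0 < l) (hdM : l ∣ M) (hdh : l ∣ h) (hM0 : 0 < M) (hhM : h ≤ M)
    (hv : 0 < v) (hvM : v ≤ M) (hn3 : 3 ≤ n) (hp : 600000000 * M ^ 4 < p)
    (hE : ∀ c, detCount d (M * v) c ≤ E)
    (hκ : κ = (M / l) ^ (4 * Fintype.card Jx - 1) * (h / l))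
    (hCol : (colTriples (WS (.inl none : Jx ⊕ Jx) d M h l S)).card ≤ Col)
    (hmain : n * 1 ^ 3 * p ^ 98 + E * (M * v) ^ 4 * (B * κ ^ 3) +
      E * (M * v) ^ 4 * (S.card * κ + Col) * p ^ 32 ≤
      1 ^ 2 * ((M * v) ^ 4 * (S.card * κ)) * p ^ 65)
    (Q : ℝ) (hQ : (l:ℝ) ≤ 2 * Q) :
    1 / (32 * (Q ^ 2 * (v:ℝ) ^ 4)) ≤ LB.heilDelta n := by
  have hlR0 : (0:ℝ) < l := by exact_mod_cast hl
  have hQ0 : 0 < Q := by linarith
  have hlM : l ≤ M := Nat.le_of_dvd hM0 hdM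
  have hM4 : 0 < M ^ 4 := by positivity
  obtain ⟨u, hu0, -, -, hu2, hu1, -, -⟩ := exists_approx hd (l * v ^ 2) (by positivity)
  obtain ⟨V, hV⟩ : ∃ V : ℝ, V = (v:ℝ) := ⟨_, rfl⟩
  have hV0 : 0 < V := by rw [hV]; exact_mod_cast hv
  have hNc : ((l * v ^ 2 : ℕ) : ℝ) = l * V ^ 2 := by rw [hV]; push_cast; rfl
  rw [hNc] at hu1 hu2
  rw [← hV]
  have hs1w : |s1 d ((l : ℤ√d) * u)| = l * |s1 d u| := by
    rw [s1_mul hd.pos.le, s1_natCast, abs_mul, abs_of_pos hlR0]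
  have hs2w : |s2 d ((l : ℤ√d) * u)| = l * |s2 d u| := by
    rw [s2_mul hd.pos.le, s2_natCast, abs_mul, abs_of_pos hlR0]
  have hw0 : (l : ℤ√d) * u ≠ 0 := by
    intro h0
    have h1 : |s1 d ((l : ℤ√d) * u)| = 0 := by rw [h0]; simp
    rw [hs1w] at h1
    have h2 : 0 < |s1 d u| := abs_pos.2 (s1_ne_zero hd hu0)
    have : 0 < (l:ℝ) * |s1 d u| := by positivity
    linarith
  have hu2' : |s2 d u| ≤ 1 / (l * V ^ 2) := by
    refine hu2.trans ?_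
    gcongr
    linarith
  obtain ⟨Y, hY⟩ : ∃ Y : ℕ, Y = M * v := ⟨_, rfl⟩
  rw [← hY] at hE hmain
  have hYR : (Y:ℝ) = M * V := by rw [hY, hV]; push_cast; rfl
  have hY1 : 1 ≤ Y := by rw [hY]; exact Nat.one_le_iff_ne_zero.2 (by positivity)
  obtain ⟨M2, hM2⟩ : ∃ M2 : ℝ, M2 = (M:ℝ) ^ 2 := ⟨_, rfl⟩
  have hM20 : 0 < M2 := by rw [hM2]; positivity
  have hpR : 600000000 * M2 ^ 2 ≤ p := by
    have h0 : ((600000000 * M ^ 4 : ℕ) : ℝ) ≤ p := by exact_mod_cast hp.le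
    push_cast at h0
    rw [hM2, ← pow_mul]
    exact h0
  have hY2 : (Y:ℝ) ^ 2 = M2 * V ^ 2 := by rw [hYR, hM2]; ring
  have hs2wY : |s2 d ((l : ℤ√d) * u)| * (Y:ℝ) ^ 2 ≤ M2 := by
    rw [hs2w, hY2]
    calc (l:ℝ) * |s2 d u| * (M2 * V ^ 2) ≤ (l:ℝ) * (1 / (l * V ^ 2)) * (M2 * V ^ 2) := by gcongr
      _ = M2 := by field_simp
  have hYp : 24 * Y ^ 2 < p := by
    have h0 : Y ^ 2 ≤ M ^ 4 := by
      rw [hY]
      calc (M * v) ^ 2 ≤ (M * M) ^ 2 := by gcongr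
        _ = M ^ 4 := by ring
    omega
  have hnorm : |((l : ℤ√d) * u).norm| < (p : ℤ) := by
    have h1 : ((|((l : ℤ√d) * u).norm| : ℤ) : ℝ) < p := by
      rw [Int.cast_abs, norm_eq hd.pos.le, abs_mul, hs1w, hs2w]
      have h3 : |s1 d u| * |s2 d u| ≤ 6 := by
        calc |s1 d u| * |s2 d u| ≤ (6 * (l * V ^ 2)) * (1 / (l * V ^ 2)) := by gcongr
          _ = 6 := by field_simp
      have h4 : (l:ℝ) * |s1 d u| * (l * |s2 d u|) ≤ 6 * (l:ℝ) ^ 2 := by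
        calc (l:ℝ) * |s1 d u| * (l * |s2 d u|) = (|s1 d u| * |s2 d u|) * (l:ℝ) ^ 2 := by ring
          _ ≤ 6 * (l:ℝ) ^ 2 := by gcongr
      have h5 : (l:ℝ) ^ 2 ≤ M2 := by
        rw [hM2]
        have : (l:ℝ) ≤ M := by exact_mod_cast hlM
        gcongr
      have h6 : (1:ℝ) ≤ M2 := by
        rw [hM2]; exact one_le_pow₀ (by exact_mod_cast hM0)
      have h7 : M2 ≤ M2 ^ 2 := le_self_pow₀ h6 (by norm_num)
      linarith
    exact_mod_cast h1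
  have hMp : 300000 * M ^ 4 < p := by omega
  have hB : 512 * (Fintype.card Jx : ℝ) * (M:ℝ) ^ 2 *
      (32 * |s2 d ((l : ℤ√d) * u)| * (Y:ℝ) ^ 2 + 512 * (Fintype.card Jx : ℝ) * (M:ℝ) ^ 2) ≤
      p / 2 := by
    rw [card_Jx, ← hM2, mul_assoc 32]
    push_cast
    calc _ ≤ 512 * 32 * M2 * (32 * M2 + 512 * 32 * M2) := by gcongr
      _ = 268959744 * M2 ^ 2 := by ring
      _ ≤ p / 2 := by have := sq_nonneg M2; linarith
  obtain ⟨P, hP1, hP2, hP3⟩ := core2 r hr (.inl none : Jx ⊕ Jx) hd l M h Y 1 n E Col κ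
    ((l : ℤ√d) * u) S Z B hZ1 hZ2 hl hdM hdh hM0 hhM one_pos hn3 (dvd_mul_right _ _) hw0
    hnorm hYp hMp hE hκ hCol (by rw [card_Jx]; exact hmain) hB
  refine le_heilDelta_of_O hn3 (by positivity) d hd Y hY1 P hP1 hP2 ?_
  intro x hx x' hx' z hz hxy hyz hxz
  have h10 := hP3 x hx x' hx' z hz hxy hyz hxz
  rw [card_Jx, ← hM2, mul_assoc 32] at h10
  obtain ⟨X, hX⟩ : ∃ X : ℝ, X = |s1 d (dt x x' z)| := ⟨_, rfl⟩
  rw [← hX] at h10 ⊢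
  have hX0 : 0 ≤ X := by rw [hX]; exact abs_nonneg _
  have h11 : |s1 d ((l : ℤ√d) * u)| ≤ 6 * ((l:ℝ) ^ 2 * V ^ 2) := by
    rw [hs1w]
    calc (l:ℝ) * |s1 d u| ≤ l * (6 * (l * V ^ 2)) := by gcongr
      _ = _ := by ring
  have h12 := fin_ineq M2 ((l:ℝ) ^ 2 * V ^ 2) X p _ _ hM20 (by positivity) hX0 hpR hs2wY h11
    (abs_nonneg _) (by exact_mod_cast h10)
  have h13 : M2 ≤ Q ^ 2 * V ^ 2 * X := by
    have h14 : (l:ℝ) ^ 2 * V ^ 2 * X ≤ (2 * Q) ^ 2 * V ^ 2 * X := by gcongr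
    have h15 : (2 * Q) ^ 2 * V ^ 2 * X = 4 * (Q ^ 2 * V ^ 2 * X) := by ring
    linarith
  calc 32 * (1 / (32 * (Q ^ 2 * V ^ 4))) * (Y:ℝ) ^ 2 = (Y:ℝ) ^ 2 / (Q ^ 2 * V ^ 4) := by
        field_simp
    _ ≤ X := by
        rw [div_le_iff₀ (by positivity), hY2]
        calc M2 * V ^ 2 ≤ Q ^ 2 * V ^ 2 * X * V ^ 2 := by gcongr
          _ = _ := by ring

/-- lower bound for `Δ(n)`, `n ≤ t ^ ν`, with free exponents -/
theorem points (q a b e g μ y ν α : ℕ) (hq : 1 ≤ q)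
    (h1 : ν + 96 * q + a + 1 ≤ 4 * y + b) (h2 : 4 * y + 2 * b + 1 ≤ 196 * q + 2 * a)
    (h3 : 4 * y + 63 * e + b + 2 * μ + 1 ≤ 96 * q + 64 * a)
    (h4 : 4 * y + 124 * g + 1 ≤ 124 * a) (h5 : a + b ≤ 2 * e) (h6 : b ≤ a) (h7 : g + μ = a)
    (h8 : y ≤ a) (h9 : α = 4 * y + 2 * q) :
    ∃ t₀ : ℕ, ∀ t : ℕ, t₀ ≤ t → ∀ n : ℕ, 3 ≤ n → n ≤ t ^ ν →
      1 / (32 * (t:ℝ) ^ α) ≤ LB.heilDelta n := by
  obtain ⟨CE, hCE, hdet⟩ := det_count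
  obtain ⟨N0, hN0⟩ := prime_sq_all
  obtain ⟨C, hC⟩ : ∃ C : ℕ, C = 600000000 := ⟨_, rfl⟩
  obtain ⟨D, hD⟩ : ∃ D : ℕ, D = 4 * (q + a) + 1 := ⟨_, rfl⟩
  obtain ⟨B1, hB1⟩ : ∃ B1 : ℕ, B1 = 4 * (16 * C) ^ 33 * 2 ^ 96 := ⟨_, rfl⟩
  obtain ⟨c1, hc1⟩ : ∃ c1 : ℕ, c1 = 6 * 129 ^ 63 * 33 ^ 2 := ⟨_, rfl⟩
  obtain ⟨c2, hc2⟩ : ∃ c2 : ℕ, c2 = 6 * 256 * 3 ^ 127 * 33 ^ 4 := ⟨_, rfl⟩
  obtain ⟨t₀, ht₀⟩ := eventually_atTop.1 ((growth2 (16 * c1) CE (40 * D ^ 2)).and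
    ((growth2 (16 * c2) CE (40 * D ^ 2)).and ((growth2 32 CE (40 * D ^ 2)).and
    ((eventually_ge_atTop B1).and ((eventually_ge_atTop N0).and
      (eventually_ge_atTop (16 * C)))))))
  refine ⟨t₀, fun t htt n hn3 hn => ?_⟩
  obtain ⟨g1, g2, g32, gB, gN, gC⟩ := ht₀ t htt
  obtain ⟨G, hG⟩ : ∃ G : ℕ, G = ⌈(CE:ℝ) * (1 + ((40 * D ^ 2 : ℕ) : ℝ) * Real.log t ^ 2)⌉₊ :=
    ⟨_, rfl⟩
  rw [← hG] at g1 g2 g32
  have ht7 : 7 ≤ t := le_trans (by rw [hC]; norm_num) gC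
  have ht1 : 1 ≤ t := le_trans (by norm_num) ht7
  -- the prime `l`
  obtain ⟨l, hl, hl1, hl2, d, hd, ρ, hρ⟩ := exists_prime_phi (t ^ q) (by positivity)
  have htl : t ≤ l := by
    calc t = t ^ 1 := (pow_one t).symm
      _ ≤ t ^ q := Nat.pow_le_pow_right ht1 hq
      _ ≤ l := hl1.le
  have hl7 : 7 ≤ l := ht7.trans htl
  have hlpos : 0 < l := hl.pos
  have hl2R : (l:ℝ) ≤ 2 * (t:ℝ) ^ q := by exact_mod_cast hl2
  obtain ⟨S, hS1, Z, hZ1, hZ2⟩ := local32 d l hl (le_trans (by norm_num) hl7) ρ hρ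
    (root_ne hl7 hd hρ)
  have hSu : S.card ≤ l ^ 32 := by
    rw [hS1, pow_succ l 31]; exact Nat.mul_le_mul_left _ (Nat.sub_le _ _)
  have hSl : l ^ 32 ≤ 2 * S.card := by
    have : l ≤ 2 * (l - 1) := by clear * - hl7; omega
    rw [hS1, pow_succ l 31, mul_left_comm]; exact Nat.mul_le_mul_left _ this
  -- the prime `p`
  have hC0 : 0 < C := by rw [hC]; norm_num
  have hM00 : 0 < l * t ^ a := by positivity
  have hNt : t ≤ C * (l * t ^ a) ^ 4 := by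
    calc t ≤ l := htl
      _ ≤ l * t ^ a := Nat.le_mul_of_pos_right _ (by positivity)
      _ ≤ (l * t ^ a) ^ 4 := Nat.le_self_pow (by norm_num) _
      _ ≤ _ := Nat.le_mul_of_pos_left _ hC0
  obtain ⟨p, hp, hp1, hp2, r, hr⟩ := hN0 d hd (C * (l * t ^ a) ^ 4) (gN.trans hNt)
  have : Fact p.Prime := ⟨hp⟩
  obtain ⟨k, hk, hk1, hk2⟩ := exists_mult C (l * t ^ a) p hC0 hM00 hp1
  have hlogp : Real.log p ≤ ((40 * D ^ 2 : ℕ) : ℝ) * Real.log t ^ 2 := by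
    have e1 : C * (l * t ^ a) ^ 4 ≤ t ^ D := by
      calc C * (l * t ^ a) ^ 4 ≤ C * (2 * t ^ q * t ^ a) ^ 4 := by gcongr
        _ = 16 * C * t ^ (4 * (q + a)) := by rw [mul_comm 4, pow_mul, pow_add]; ring
        _ ≤ t * t ^ (4 * (q + a)) := by gcongr
        _ = t ^ D := by rw [hD]; ring
    have e0 : (1:ℝ) ≤ ((C * (l * t ^ a) ^ 4 : ℕ) : ℝ) := by exact_mod_cast ht1.trans hNt
    have e2 : Real.log ((C * (l * t ^ a) ^ 4 : ℕ) : ℝ) ≤ D * Real.log t := by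
      rw [← Real.log_pow]
      exact Real.log_le_log (by linarith) (by exact_mod_cast e1)
    have e3 := Real.log_nonneg e0
    calc Real.log p ≤ 40 * Real.log ((C * (l * t ^ a) ^ 4 : ℕ) : ℝ) ^ 2 := hp2
      _ ≤ 40 * (D * Real.log t) ^ 2 := by gcongr
      _ = _ := by push_cast; ring
  obtain ⟨M, hM⟩ : ∃ M : ℕ, M = l * t ^ a * k := ⟨_, rfl⟩
  rw [← hM] at hk1 hk2
  have hM0 : 0 < M := by rw [hM]; positivity
  have hlM : l * t ^ a ≤ M := by rw [hM]; exact Nat.le_mul_of_pos_right _ hk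
  have hlM' : l ≤ M := le_trans (Nat.le_mul_of_pos_right _ (by positivity)) hlM
  have hyM : t ^ y ≤ M :=
    le_trans ((Nat.pow_le_pow_right ht1 h8).trans (Nat.le_mul_of_pos_left _ hlpos)) hlM
  have hp0 : M ^ 4 ≤ p := (Nat.le_mul_of_pos_left _ hC0).trans hk1.le
  obtain ⟨Y, hY⟩ : ∃ Y : ℕ, Y = M * t ^ y := ⟨_, rfl⟩
  have hY1 : 1 ≤ Y := by rw [hY]; exact Nat.one_le_iff_ne_zero.2 (by positivity)
  have hEdet : ∀ z, detCount d Y z ≤ Y ^ 4 * G := by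
    intro z
    have h0 := hdet d hd Y hY1 z
    have hYp' : Y ≤ p := by
      rw [hY]
      calc M * t ^ y ≤ M * M := by gcongr
        _ = M ^ 2 := by ring
        _ ≤ M ^ 4 := Nat.pow_le_pow_right hM0 (by norm_num)
        _ ≤ p := hp0
    have h1 : (CE:ℝ) * (1 + Real.log Y) ≤ G := by
      rw [hG]
      refine le_trans ?_ (Nat.le_ceil _)
      have : Real.log Y ≤ Real.log p :=
        Real.log_le_log (by exact_mod_cast hY1) (by exact_mod_cast hYp')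
      gcongr
      exact this.trans hlogp
    have h2 : (detCount d Y z : ℝ) ≤ (Y:ℝ) ^ 4 * G := by
      calc (detCount d Y z : ℝ) ≤ CE * (Y:ℝ) ^ 4 * (1 + Real.log Y) := h0
        _ = (Y:ℝ) ^ 4 * (CE * (1 + Real.log Y)) := by ring
        _ ≤ (Y:ℝ) ^ 4 * G := by gcongr
    exact_mod_cast h2
  have hhM : l * t ^ b * k ≤ M := by rw [hM]; gcongr
  have hκ : (t ^ a * k) ^ 127 * (t ^ b * k) =
      (M / l) ^ (4 * Fintype.card Jx - 1) * (l * t ^ b * k / l) := by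
    rw [card_Jx, hM, mul_assoc l, mul_assoc l, Nat.mul_div_cancel_left _ hlpos,
      Nat.mul_div_cancel_left _ hlpos]
  have hdM : l ∣ M := ⟨t ^ a * k, by rw [hM]; ring⟩
  have hdh : l ∣ l * t ^ b * k := ⟨t ^ b * k, by ring⟩
  have hcol := col_nat hd l t k a b e g μ hlpos ht1 hk h5 h6 h7 S hSu
  have A1 := numA1 t l p n (16 * C) S.card k q a b y ν ht1 hl2 hSl (by rw [← hM]; exact hk2) hn
    (by rw [← hB1]; exact gB) h1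
  have A2 := numA2 t l p G S.card k q a b y ht1 hl1.le hSl (by rw [← hM]; exact hp0) g32 h2
  have A3 := numA3 t M G y hM0 hyM (htl.trans hlM')
    (le_trans (Nat.mul_le_mul_right _ (by norm_num)) g32)
  have T1 := numT1 t l G (16 * c1) k q a b e y μ ht1 hl1.le g1 h3
  have T2 := numT2 t l G (16 * c2) k a g y ht1 g2 h4
  rw [← hc1, ← hc2, ← hM,
    (card_XX hd (.inl none : Jx ⊕ Jx) l M (l * t ^ b * k) Y _ S hlpos hdM hdh hM0 hκ).1] at hcol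
  rw [← hM, ← hY] at A1 A2 T1 T2
  rw [← hY] at A3
  have hp33 : (M ^ 4) ^ 33 ≤ p ^ 33 := by gcongr
  obtain ⟨Col, hCol⟩ : ∃ Col, Col =
    (colTriples (WS (.inl none : Jx ⊕ Jx) d M (l * t ^ b * k) l S)).card := ⟨_, rfl⟩
  rw [← hCol] at hcol
  obtain ⟨X1, hX1⟩ : ∃ X1, X1 = l ^ 32 * ((t ^ a * k) * (t ^ e * k)) ^ 63 *
      ((t ^ a * k) * (t ^ b * k)) * (t ^ μ) ^ 2 := ⟨_, rfl⟩
  obtain ⟨X2, hX2⟩ : ∃ X2, X2 = M ^ 4 * (l * t ^ g * k) ^ 124 := ⟨_, rfl⟩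
  obtain ⟨κ, hκ'⟩ : ∃ κ, κ = (t ^ a * k) ^ 127 * (t ^ b * k) := ⟨_, rfl⟩
  rw [← hX1] at hcol T1
  rw [← hX2] at hcol T2
  rw [← hκ'] at hcol A1 A2 hκ
  have A4 : 8 * (Y ^ 4 * G) * Col ≤ S.card * κ * p ^ 33 := by
    refine Nat.le_of_mul_le_mul_left ?_ (by norm_num : 0 < 2)
    calc 2 * (8 * (Y ^ 4 * G) * Col)
        ≤ 2 * (8 * (Y ^ 4 * G) * (S.card * κ * (c1 * X1 + c2 * X2))) := by gcongr
      _ = S.card * κ * (16 * c1 * (Y ^ 4 * G) * X1 + 16 * c2 * (Y ^ 4 * G) * X2) := by ring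
      _ ≤ S.card * κ * (p ^ 33 + p ^ 33) :=
          Nat.mul_le_mul_left _ (Nat.add_le_add (T1.trans hp33) (T2.trans hp33))
      _ = _ := by ring
  have hmain := numMain n p (Y ^ 4 * G) (Y ^ 4) S.card (4 * l ^ 92) κ Col A1 A2 (A3.trans hp33) A4
  have hfin := from_core hd r hr l M (l * t ^ b * k) (t ^ y) n (Y ^ 4 * G) Col κ (4 * l ^ 92) S Z
    hZ1 hZ2 hlpos hdM hdh hM0 hhM (by positivity) hyM hn3 (by rw [← hC]; exact hk1)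
    (by rw [← hY]; exact hEdet) hκ hCol.ge (by rw [← hY]; exact hmain) ((t:ℝ) ^ q) hl2R
  have hα : (t:ℝ) ^ α = ((t:ℝ) ^ q) ^ 2 * ((t ^ y : ℕ) : ℝ) ^ 4 := by
    rw [Nat.cast_pow, ← pow_mul, ← pow_mul, ← pow_add, h9]
    congr 1; ring
  rw [hα]
  exact hfin

end Vale.Agent.N036W
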