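import Mathlib
import Vale.Agent.N036.Final
import Vale.Agent.N036W.Par
import Vale.Agent.N036W.Defs

/-!
# P036: the exponent `c < 1889 / 97648`
-/

namespace Vale.Agent.N036W

open Finset Filter Vale.Agent.P036 Vale.Agent.P036.QF

/-- the power saving in the unit square -/
theorem square (c : ℝ) (hc : c < 1889 / 97648) :
    ∃ n₀ : ℕ, ∀ n : ℕ, n₀ ≤ n → (n:ℝ) ^ (-2 + c) ≤ LB.heilDelta n := by
  have hs : 0 < 3778 - 195296 * c := by linarith
  obtain ⟨k, hk⟩ := exists_nat_gt ((6 - 3 * c) / (3778 - 195296 * c))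
  rw [div_lt_iff₀ hs] at hk
  obtain ⟨t₀, H⟩ := points (1889 * k + 1889) (95759 * k + 95759) (89363 * k + 89361)
    (92561 * k + 92560) (92670 * k + 92669) (3089 * k + 3090) (95759 * k + 95759)
    (195296 * k + 195293) (386814 * k + 386814) (by omega) (by omega)
    (by omega) (by omega) (by omega) (by omega) (by omega) (by omega) (by omega) (by omega)
  refine Vale.Agent.N036.transfer _ _ _ c (by omega) ?_ t₀ H
  push_cast
  linarith

theorem notQ1 : ¬ (∀ ε : ℝ, 0 < ε → ∃ C : ℝ, ∃ n₀ : ℕ, ∀ n : ℕ, n₀ ≤ n →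
    LB.heilDelta n ≤ C * (n:ℝ) ^ (-2 + ε)) := by
  obtain ⟨n₀, H⟩ := square (1 / 52) (by norm_num)
  exact LB.not_Q1_of_power (1 / 52) (by norm_num)
    fun N => ⟨max n₀ N, le_max_right _ _, H _ (le_max_left _ _)⟩

/-- the identification of `ℝ × ℝ` with the Euclidean plane -/
def toE : (ℝ × ℝ) ≃ EuclideanSpace ℝ (Fin 2) where
  toFun p := !₂[p.1, p.2]
  invFun v := (v 0, v 1)
  left_inv p := by simp
  right_inv v := by ext i; fin_cases i <;> simp

theorem area_eq (p q r : ℝ × ℝ) : area p q r = LB.tArea (toE p) (toE q) (toE r) := by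
  unfold area LB.tArea
  rw [Matrix.det_fin_two_of]
  simp only [toE, Equiv.coe_fn_mk, Matrix.cons_val_zero, Matrix.cons_val_one]
  congr 2
  ring

theorem isLeast_mArea {P : Finset (EuclideanSpace ℝ (Fin 2))} (h3 : 3 ≤ P.card) :
    IsLeast {A : ℝ | ∃ p ∈ P, ∃ q ∈ P, ∃ r ∈ P, p ≠ q ∧ q ≠ r ∧ p ≠ r ∧ A = LB.tArea p q r}
      (LB.mArea P) := by
  obtain ⟨p, q, r, hp, hq, hr, hpq, hpr, hqr⟩ := Finset.two_lt_card_iff.1 h3
  have hfin : {A : ℝ | ∃ p ∈ P, ∃ q ∈ P, ∃ r ∈ P, p ≠ q ∧ q ≠ r ∧ p ≠ r ∧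
      A = LB.tArea p q r}.Finite := by
    refine (((P ×ˢ P ×ˢ P).finite_toSet).image fun t => LB.tArea t.1 t.2.1 t.2.2).subset ?_
    rintro A ⟨p, hp, q, hq, r, hr, -, -, -, rfl⟩
    exact ⟨(p, q, r), by simp [hp, hq, hr], rfl⟩
  exact ⟨Set.Nonempty.csInf_mem ⟨_, p, hp, q, hq, r, hr, hpq, hqr, hpr, rfl⟩ hfin,
    fun A hA => csInf_le hfin.bddBelow hA⟩

theorem isMinArea_iff {P : Finset (ℝ × ℝ)} (h3 : 3 ≤ P.card) (a : ℝ) :
    IsMinArea P a ↔ a = LB.mArea (P.map toE.toEmbedding) := by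
  have h := isLeast_mArea (P := P.map toE.toEmbedding) (by rwa [card_map])
  have e : {A : ℝ | ∃ p ∈ P, ∃ q ∈ P, ∃ r ∈ P, p ≠ q ∧ q ≠ r ∧ p ≠ r ∧ A = area p q r} =
      {A : ℝ | ∃ p ∈ P.map toE.toEmbedding, ∃ q ∈ P.map toE.toEmbedding,
        ∃ r ∈ P.map toE.toEmbedding, p ≠ q ∧ q ≠ r ∧ p ≠ r ∧ A = LB.tArea p q r} := by
    ext A
    constructor
    · rintro ⟨p, hp, q, hq, r, hr, h1, h2, h3, rfl⟩
      exact ⟨_, mem_map_of_mem _ hp, _, mem_map_of_mem _ hq, _, mem_map_of_mem _ hr,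
        toE.injective.ne h1, toE.injective.ne h2, toE.injective.ne h3, area_eq p q r⟩
    · rintro ⟨p, hp, q, hq, r, hr, h1, h2, h3, rfl⟩
      obtain ⟨p, hp', rfl⟩ := Finset.mem_map.1 hp
      obtain ⟨q, hq', rfl⟩ := Finset.mem_map.1 hq
      obtain ⟨r, hr', rfl⟩ := Finset.mem_map.1 hr
      exact ⟨p, hp', q, hq', r, hr', fun h => h1 (h ▸ rfl), fun h => h2 (h ▸ rfl),
        fun h => h3 (h ▸ rfl), (area_eq p q r).symm⟩
  unfold IsMinArea
  rw [e]
  exact ⟨fun h' => h'.unique h, fun h' => h' ▸ h⟩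

theorem set_eq {n : ℕ} (h3 : 3 ≤ n) :
    {a : ℝ | ∃ P : Finset (ℝ × ℝ), P.card = n ∧
      (∀ p ∈ P, 0 ≤ p.1 ∧ p.1 ≤ 1 ∧ 0 ≤ p.2 ∧ p.2 ≤ 1) ∧ IsMinArea P a} =
    {a : ℝ | ∃ P : Finset (EuclideanSpace ℝ (Fin 2)), P.card = n ∧
      (∀ p ∈ P, ∀ i, 0 ≤ p i ∧ p i ≤ 1) ∧ a = LB.mArea P} := by
  ext a
  constructor
  · rintro ⟨P, h1, h2, h4⟩
    refine ⟨P.map toE.toEmbedding, by rw [card_map, h1], ?_, (isMinArea_iff (by omega) a).1 h4⟩
    intro p hp
    obtain ⟨p, hp', rfl⟩ := Finset.mem_map.1 hp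
    obtain ⟨a1, a2, a3, a4⟩ := h2 p hp'
    exact Fin.forall_fin_two.2 ⟨⟨a1, a2⟩, ⟨a3, a4⟩⟩
  · rintro ⟨P, h1, h2, h4⟩
    have hc : (P.map toE.symm.toEmbedding).card = n := by rw [card_map, h1]
    refine ⟨P.map toE.symm.toEmbedding, hc, ?_, (isMinArea_iff (by omega) a).2 ?_⟩
    · intro p hp
      obtain ⟨p, hp', rfl⟩ := Finset.mem_map.1 hp
      exact ⟨(h2 p hp' 0).1, (h2 p hp' 0).2, (h2 p hp' 1).1, (h2 p hp' 1).2⟩
    · rw [h4, Finset.map_map]
      congr 1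
      ext x
      simp

theorem IsHeilbronn.eq {Δ : ℕ → ℝ} (h : IsHeilbronn Δ) {n : ℕ} (h3 : 3 ≤ n) :
    Δ n = LB.heilDelta n := by
  have h1 := h n h3
  rw [set_eq h3] at h1
  exact h1.csSup_eq.symm

/-- the maximum is attained -/
theorem isHeilbronn_heilDelta : IsHeilbronn LB.heilDelta := by
  classical
  intro n h3
  rw [set_eq h3]
  let T : Finset (Fin n × Fin n × Fin n) :=
    univ.filter fun t => t.1 ≠ t.2.1 ∧ t.2.1 ≠ t.2.2 ∧ t.1 ≠ t.2.2
  have hT : T.Nonempty :=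
    ⟨(⟨0, by omega⟩, ⟨1, by omega⟩, ⟨2, by omega⟩), by simp [T, Fin.ext_iff]⟩
  let e : (Fin 2 → ℝ) → EuclideanSpace ℝ (Fin 2) := WithLp.toLp 2
  let f : (Fin n → Fin 2 → ℝ) → ℝ := fun x =>
    T.inf' hT fun t => LB.tArea (e (x t.1)) (e (x t.2.1)) (e (x t.2.2))
  have hf : Continuous f := by
    refine Continuous.finset_inf'_apply hT fun t _ => ?_
    simp only [LB.tArea, e]
    fun_prop
  obtain ⟨x, hx, hmax⟩ : ∃ x : Fin n → Fin 2 → ℝ, (∀ i j, 0 ≤ x i j ∧ x i j ≤ 1) ∧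
      ∀ y : Fin n → Fin 2 → ℝ, (∀ i j, 0 ≤ y i j ∧ y i j ≤ 1) → f y ≤ f x := by
    obtain ⟨x, hx, hmax⟩ := (isCompact_Icc (a := (0 : Fin n → Fin 2 → ℝ)) (b := 1)).exists_isMaxOn
      ⟨0, le_rfl, zero_le_one⟩ hf.continuousOn
    exact ⟨x, fun i j => ⟨hx.1 i j, hx.2 i j⟩, fun y hy =>
      isMaxOn_iff.1 hmax y ⟨fun i j => (hy i j).1, fun i j => (hy i j).2⟩⟩
  -- every admissible value is at most `f x`
  have hub : ∀ P : Finset (EuclideanSpace ℝ (Fin 2)), P.card = n →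
      (∀ p ∈ P, ∀ i, 0 ≤ p i ∧ p i ≤ 1) → LB.mArea P ≤ f x := by
    intro P hP hP2
    let g : Fin n → EuclideanSpace ℝ (Fin 2) := fun i => (P.equivFinOfCardEq hP).symm i
    have hg : Function.Injective g := fun i j h =>
      (P.equivFinOfCardEq hP).symm.injective (Subtype.ext h)
    have hgP : ∀ i, g i ∈ P := fun i => ((P.equivFinOfCardEq hP).symm i).2
    have h1 := hmax (fun i => (g i).ofLp) fun i j => hP2 _ (hgP i) j
    clear_value g
    refine le_trans ?_ h1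
    refine (Finset.le_inf'_iff hT _).2 fun t ht => ?_
    obtain ⟨h1, h2, h3'⟩ := (mem_filter.1 ht).2
    exact (isLeast_mArea (P := P) (by omega)).2
      ⟨g t.1, hgP _, g t.2.1, hgP _, g t.2.2, hgP _, hg.ne h1, hg.ne h2, hg.ne h3', rfl⟩
  -- some admissible value is at least `f x`
  have hex : ∃ P : Finset (EuclideanSpace ℝ (Fin 2)), P.card = n ∧
      (∀ p ∈ P, ∀ i, 0 ≤ p i ∧ p i ≤ 1) ∧ f x ≤ LB.mArea P := by
    by_cases hinj : Function.Injective fun i => e (x i)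
    · have hc : (univ.image fun i => e (x i)).card = n := by
        rw [card_image_of_injective _ hinj, card_univ, Fintype.card_fin]
      refine ⟨univ.image fun i => e (x i), hc, ?_, ?_⟩
      · intro p hp i
        obtain ⟨j, -, rfl⟩ := mem_image.1 hp
        exact hx j i
      · obtain ⟨p, hp, q, hq, r, hr, hpq, hqr, hpr, h⟩ :=
          (isLeast_mArea (P := univ.image fun i => e (x i)) (by omega)).1
        obtain ⟨i, -, rfl⟩ := mem_image.1 hp
        obtain ⟨j, -, rfl⟩ := mem_image.1 hq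
        obtain ⟨k, -, rfl⟩ := mem_image.1 hr
        rw [h]
        exact Finset.inf'_le (b := (i, j, k)) _ (mem_filter.2 ⟨mem_univ _,
          fun h => hpq (by rw [show i = j from h]), fun h => hqr (by rw [show j = k from h]),
          fun h => hpr (by rw [show i = k from h])⟩)
    · have h0 : f x ≤ 0 := by
        obtain ⟨i, j, hij, hne⟩ := Function.not_injective_iff.1 hinj
        obtain ⟨k, hk⟩ : ∃ k : Fin n, k ∉ ({i, j} : Finset (Fin n)) := by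
          by_contra hcon
          have h1 : (univ : Finset (Fin n)) ⊆ {i, j} := fun k _ => by
            by_contra hk; exact hcon ⟨k, hk⟩
          have h2 := (card_le_card h1).trans card_le_two
          rw [card_univ, Fintype.card_fin] at h2
          omega
        simp only [mem_insert, mem_singleton, not_or] at hk
        refine le_trans (Finset.inf'_le (b := (i, j, k)) _ (mem_filter.2 ⟨mem_univ _, hne,
          fun h => hk.2 h.symm, fun h => hk.1 h.symm⟩)) ?_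
        simp only [hij]
        simp [LB.tArea]
      have hn : (0:ℝ) < n := by exact_mod_cast (by omega : 0 < n)
      have hinj2 : Function.Injective fun i : Fin n => e fun _ => (i:ℝ) / n := by
        intro i j h
        have h1 : (i:ℝ) / n = (j:ℝ) / n :=
          congrArg (fun v : EuclideanSpace ℝ (Fin 2) => v 0) h
        rw [div_left_inj' hn.ne'] at h1
        exact Fin.ext (by exact_mod_cast h1)
      have hc : (univ.image fun i : Fin n => e fun _ => (i:ℝ) / n).card = n := by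
        rw [card_image_of_injective _ hinj2, card_univ, Fintype.card_fin]
      refine ⟨_, hc, ?_, h0.trans ?_⟩
      · intro p hp i
        obtain ⟨j, -, rfl⟩ := mem_image.1 hp
        change 0 ≤ (j:ℝ) / n ∧ (j:ℝ) / n ≤ 1
        exact ⟨by positivity, by rw [div_le_one hn]; exact_mod_cast j.2.le⟩
      · obtain ⟨p, -, q, -, r, -, -, -, -, h⟩ := (isLeast_mArea (hc.symm ▸ h3)).1
        rw [h]
        exact LB.tArea_nonneg _ _ _
  obtain ⟨P, hP1, hP2, hP3⟩ := hex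
  have hg : IsGreatest {a : ℝ | ∃ P : Finset (EuclideanSpace ℝ (Fin 2)), P.card = n ∧
      (∀ p ∈ P, ∀ i, 0 ≤ p i ∧ p i ≤ 1) ∧ a = LB.mArea P} (LB.mArea P) := by
    refine ⟨⟨P, hP1, hP2, rfl⟩, ?_⟩
    rintro a ⟨Q, hQ1, hQ2, rfl⟩
    exact (hub Q hQ1 hQ2).trans hP3
  have h5 : LB.heilDelta n = LB.mArea P := hg.csSup_eq
  rw [h5]
  exact hg

theorem notQ1' (Δ : ℕ → ℝ) (h : IsHeilbronn Δ) : ¬ (∀ ε : ℝ, 0 < ε → ∃ C : ℝ, ∃ n₀ : ℕ,
    ∀ n : ℕ, n₀ ≤ n → Δ n ≤ C * (n:ℝ) ^ (-2 + ε)) := by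
  intro H
  refine notQ1 fun ε hε => ?_
  obtain ⟨C, n₀, h1⟩ := H ε hε
  refine ⟨C, max n₀ 3, fun n hn => ?_⟩
  rw [← h.eq (le_of_max_le_right hn)]
  exact h1 n (le_of_max_le_left hn)

theorem square' (Δ : ℕ → ℝ) (h : IsHeilbronn Δ) (c : ℝ) (hc : c < 1889 / 97648) :
    ∃ n₀ : ℕ, ∀ n : ℕ, n₀ ≤ n → (n:ℝ) ^ (-2 + c) ≤ Δ n := by
  obtain ⟨n₀, h1⟩ := square c hc
  refine ⟨max n₀ 3, fun n hn => ?_⟩
  rw [h.eq (le_of_max_le_right hn)]
  exact h1 n (le_of_max_le_left hn)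

end Vale.Agent.N036W
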