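import Mathlib
import Vale.Agent.P036.QF.D1
import Vale.Agent.P036.QF.D2
import Vale.Agent.P036.QF.K1a
import Vale.Agent.P036.QF.DetCount

/-!
# P036: pairs of parallel vectors over a real quadratic ring
-/

namespace Vale.Agent.N036W

open Finset Vale.Agent.P036.QF Vale.Agent.P036.QF.D2

variable {J : Type} [Fintype J] [DecidableEq J] {d : ℤ}

/-- the largest absolute value of an integer coordinate -/
def sz (x : J → ℤ√d) : ℕ := univ.sup fun j => max (x j).re.natAbs (x j).im.natAbs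

omit [DecidableEq J] in
theorem sz_le_iff (x : J → ℤ√d) (r : ℕ) :
    sz x ≤ r ↔ ∀ j, (x j).re.natAbs ≤ r ∧ (x j).im.natAbs ≤ r := by
  simp [sz, Finset.sup_le_iff]

omit [DecidableEq J] in
theorem sz_pos {x : J → ℤ√d} (hx : x ≠ 0) : 1 ≤ sz x := by
  by_contra h
  have h0 : sz x ≤ 0 := by omega
  rw [sz_le_iff] at h0
  apply hx
  funext j
  have := h0 j
  exact Zsqrtd.ext (by simp; omega) (by simp; omega)

/-- vectors of size at most `r` -/
noncomputable def ball (J : Type) [Fintype J] [DecidableEq J] (d : ℤ) (r : ℕ) :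
    Finset (J → ℤ√d) := Fintype.piFinset fun _ => sbox d r

theorem mem_ball (r : ℕ) (x : J → ℤ√d) : x ∈ ball J d r ↔ sz x ≤ r := by
  rw [ball, Fintype.mem_piFinset, sz_le_iff]
  refine forall_congr' fun j => ?_
  rw [mem_sbox]
  omega

theorem card_sbox (d : ℤ) (r : ℕ) : (sbox d r).card = (2 * r + 1) ^ 2 := by
  unfold sbox
  rw [Finset.card_image_of_injective]
  · rw [Finset.card_product, Int.card_Icc]
    have : ((r : ℤ) + 1 - -(r : ℤ)).toNat = 2 * r + 1 := by omega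
    rw [this]; ring
  · intro a b h
    exact Prod.ext (congrArg Zsqrtd.re h) (congrArg Zsqrtd.im h)

theorem card_ball (r : ℕ) : (ball J d r).card = (2 * r + 1) ^ (2 * Fintype.card J) := by
  rw [ball, Fintype.card_piFinset, Finset.prod_const, card_sbox, Finset.card_univ, ← pow_mul]

theorem pow_step (a n : ℕ) : (a + 2) ^ (n + 1) ≤ a ^ (n + 1) + 2 * (n + 1) * (a + 2) ^ n := by
  induction n with
  | zero => simp
  | succ n ih =>
    have h1 : a ^ (n + 1) ≤ (a + 2) ^ (n + 1) := Nat.pow_le_pow_left (by omega) _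
    calc (a + 2) ^ (n + 1 + 1) = (a + 2) * (a + 2) ^ (n + 1) := by ring
      _ ≤ (a + 2) * (a ^ (n + 1) + 2 * (n + 1) * (a + 2) ^ n) := by gcongr
      _ = a ^ (n + 1 + 1) + 2 * a ^ (n + 1) + 2 * (n + 1) * (a + 2) ^ (n + 1) := by ring
      _ ≤ a ^ (n + 1 + 1) + 2 * (a + 2) ^ (n + 1) + 2 * (n + 1) * (a + 2) ^ (n + 1) := by gcongr
      _ = _ := by ring

theorem card_shell (n : ℕ) (hn : 2 * Fintype.card J = n + 1) (r : ℕ) (hr : 1 ≤ r)
    (S : Finset (J → ℤ√d)) (hS : ∀ w ∈ S, sz w = r) : S.card ≤ 2 * (n + 1) * (3 * r) ^ n := by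
  classical
  have h1 : S ⊆ ball J d r \ ball J d (r - 1) := by
    intro w hw
    rw [Finset.mem_sdiff, mem_ball, mem_ball, hS w hw]
    omega
  have h2 := Finset.card_le_card h1
  have h3 : ball J d (r - 1) ⊆ ball J d r := by
    intro w hw
    rw [mem_ball] at *
    omega
  rw [Finset.card_sdiff_of_subset h3, card_ball, card_ball, hn] at h2
  obtain ⟨k, rfl⟩ : ∃ k, r = k + 1 := ⟨r - 1, by omega⟩
  have h4 := pow_step (2 * k + 1) n
  rw [Nat.add_sub_cancel] at h2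
  have h5 : (2 * k + 1 + 2) ^ n ≤ (3 * (k + 1)) ^ n := Nat.pow_le_pow_left (by omega) _
  have h6 : 2 * (n + 1) * (2 * k + 1 + 2) ^ n ≤ 2 * (n + 1) * (3 * (k + 1)) ^ n :=
    Nat.mul_le_mul_left _ h5
  rw [show 2 * (k + 1) + 1 = 2 * k + 1 + 2 by ring] at h2
  omega

omit [Fintype J] [DecidableEq J] in
theorem par_trans (hd : Good d) {u w x : J → ℤ√d} (hw : w ≠ 0) (h1 : Par u w) (h2 : Par w x) :
    Par u x := by
  obtain ⟨k, hk⟩ := Function.ne_iff.1 hw
  intro i j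
  refine cancel hd hk ?_
  have a1 := h1 i k
  have a2 := h1 j k
  have a3 := h2 k j
  have a4 := h2 k i
  have a5 := h1 i j
  linear_combination u i * a3 - u j * a4 + x k * a5

omit [Fintype J] [DecidableEq J] in
theorem par_sub {u v w : J → ℤ√d} (h1 : Par u v) (h2 : Par u w) : Par u (v - w) := by
  intro i j
  simp only [Pi.sub_apply]
  linear_combination h1 i j - h2 i j

omit [DecidableEq J] in
/-- a coordinate which is the largest one on the whole line -/
theorem exists_coord (φ : ℤ√d → ℝ) (hm : ∀ x y, φ (x * y) = φ x * φ y)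
    (hφ : ∀ x, x ≠ 0 → φ x ≠ 0) {u : J → ℤ√d} (hu : u ≠ 0) :
    ∃ i, ∀ w, Par u w → ∀ j, |φ (w j)| ≤ |φ (w i)| := by
  obtain ⟨k, hk⟩ := Function.ne_iff.1 hu
  obtain ⟨i, -, hi⟩ := Finset.exists_max_image univ (fun j => |φ (u j)|) ⟨k, mem_univ k⟩
  have h0 : 0 < |φ (u i)| := lt_of_lt_of_le (abs_pos.2 (hφ _ hk)) (hi k (mem_univ k))
  refine ⟨i, fun w hw j => ?_⟩
  have h1 := congrArg (fun z => |φ z|) (hw i j)
  simp only [hm, abs_mul] at h1
  have h2 : |φ (u i)| * |φ (w j)| ≤ |φ (u i)| * |φ (w i)| := by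
    rw [h1]; exact mul_le_mul_of_nonneg_right (hi j (mem_univ j)) (abs_nonneg _)
  exact le_of_mul_le_mul_left h2 h0

theorem natAbs_lt (hd : Good d) {x : ℤ√d} {β : ℕ} (h1 : |s1 d x| < β) (h2 : |s2 d x| < β) :
    x.re.natAbs < β ∧ x.im.natAbs < β := by
  have hs : 1 ≤ √(d : ℝ) := by
    rw [Real.one_le_sqrt]
    have := hd.two_le
    have : (2 : ℝ) ≤ d := by exact_mod_cast this
    linarith
  rw [abs_lt, s1] at h1
  rw [abs_lt, s2] at h2
  have e1 : |(x.re : ℝ)| < β := by rw [abs_lt]; constructor <;> linarith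
  have e2 : |(x.im : ℝ) * √(d : ℝ)| < β := by rw [abs_lt]; constructor <;> linarith
  have e3 : |(x.im : ℝ)| < β := by
    rw [abs_mul, abs_of_pos (by linarith : (0:ℝ) < √(d : ℝ))] at e2
    nlinarith [abs_nonneg (x.im : ℝ)]
  rw [← Int.cast_abs] at e1 e3
  have e4 : |x.re| < β := by exact_mod_cast e1
  have e5 : |x.im| < β := by exact_mod_cast e3
  rw [← Int.natCast_natAbs] at e4 e5
  omega

/-- both embeddings of all coordinates are at most `16 M` -/
def Bx (d : ℤ) (M : ℕ) (v : J → ℤ√d) : Prop :=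
  ∀ j, |s1 d (v j)| ≤ 16 * M ∧ |s2 d (v j)| ≤ 16 * M

omit [DecidableEq J] in
/-- points on a line without short vectors -/
theorem card_line' (hd : Good d) {u : J → ℤ√d} (hu : u ≠ 0) (β M : ℕ) (hβ : 0 < β) (hM : β ≤ M)
    (hmin : ∀ w, w ≠ 0 → Par u w → β ≤ sz w) (Q : Finset (J → ℤ√d))
    (hQ : ∀ v ∈ Q, Par u v ∧ Bx d M v) : (Q.card : ℝ) ≤ (33 * M / β) ^ 2 := by
  obtain ⟨i, hi⟩ := exists_coord (s1 d) (s1_mul hd.pos.le) (fun _ => s1_ne_zero hd) hu
  obtain ⟨k, hk⟩ := exists_coord (s2 d) (s2_mul hd.pos.le) (fun _ => s2_ne_zero hd) hu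
  have hβ' : (0:ℝ) < β := by exact_mod_cast hβ
  have hM' : (β:ℝ) ≤ M := by exact_mod_cast hM
  have h := DC.card_le_of_separated2 Q (fun v => s1 d (v i))
    (fun v => s2 d (v k)) (16 * M) β hβ' (by positivity) (fun v hv => ((hQ v hv).2 i).1)
    (fun v hv => ((hQ v hv).2 k).2) (by
      intro v hv w hw hne
      by_contra hc
      push Not at hc
      have hp := par_sub (hQ v hv).1 (hQ w hw).1
      have h1 := hmin _ (sub_ne_zero.2 hne) hp
      have h2 : sz (v - w) ≤ β - 1 := by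
        rw [sz_le_iff]
        intro j
        have a1 := hi _ hp j
        have a2 := hk _ hp j
        rw [Pi.sub_apply v w i, s1_sub] at a1
        rw [Pi.sub_apply v w k, s2_sub] at a2
        have := natAbs_lt hd (a1.trans_lt hc.1) (a2.trans_lt hc.2)
        omega
      omega)
  refine h.trans (pow_le_pow_left₀ (by positivity) ?_ 2)
  rw [div_add_one hβ'.ne', div_le_div_iff_of_pos_right hβ']
  linarith

omit [DecidableEq J] in
theorem exists_min (u : J → ℤ√d) (hu : u ≠ 0) :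
    ∃ w : J → ℤ√d, w ≠ 0 ∧ Par u w ∧ ∀ x, x ≠ 0 → Par u x → sz w ≤ sz x := by
  classical
  have hex : ∃ n : ℕ, ∃ w : J → ℤ√d, w ≠ 0 ∧ Par u w ∧ sz w = n :=
    ⟨_, u, hu, fun i j => mul_comm _ _, rfl⟩
  obtain ⟨w, hw, hd, hn⟩ := Nat.find_spec hex
  refine ⟨w, hw, hd, fun x hx hdx => ?_⟩
  rw [hn]
  exact Nat.find_min' hex ⟨x, hx, hdx, rfl⟩

open scoped Classical in
/-- **Parallel pairs.** -/
theorem card_par (hd : Good d) (n : ℕ) (hn : 2 * Fintype.card J = n + 5) (M r : ℕ) (hr : 0 < r)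
    (hrM : r ≤ M) (A B : Finset (J → ℤ√d)) (hA : ∀ u ∈ A, u ≠ 0 ∧ Bx d M u)
    (hB : ∀ v ∈ B, Bx d M v) :
    (((A ×ˢ B).filter fun t => Par t.1 t.2).card : ℝ) ≤
      A.card * (33 * M / r) ^ 2 + 2 * (n + 5) * 3 ^ (n + 4) * 33 ^ 4 * M ^ 4 * r ^ (n + 1) := by
  set A1 := A.filter fun u => ∀ w, w ≠ 0 → Par u w → r ≤ sz w with hA1
  set Sh : ℕ → Finset (J → ℤ√d) := fun k => (ball J d k).filter fun w =>
    sz w = k ∧ w ≠ 0 ∧ ∀ x, x ≠ 0 → Par w x → k ≤ sz x with hSh
  have hsub : (A ×ˢ B).filter (fun t => Par t.1 t.2) ⊆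
      (A1.biUnion fun u => (B.filter (Par u)).image fun v => (u, v)) ∪
        (Ico 1 r).biUnion fun k => (Sh k).biUnion fun w =>
          A.filter (Par w) ×ˢ B.filter (Par w) := by
    rintro ⟨u, v⟩ ht
    rw [mem_filter, mem_product] at ht
    obtain ⟨⟨hu, hv⟩, hp⟩ := ht
    simp only at hu hv hp
    rw [mem_union]
    by_cases h : ∀ w, w ≠ 0 → Par u w → r ≤ sz w
    · left
      rw [mem_biUnion]
      exact ⟨u, mem_filter.2 ⟨hu, h⟩, mem_image.2 ⟨v, mem_filter.2 ⟨hv, hp⟩, rfl⟩⟩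
    · right
      push Not at h
      obtain ⟨w0, h1, h2, h3⟩ := h
      obtain ⟨w, e1, e2, e3⟩ := exists_min u (hA u hu).1
      rw [mem_biUnion]
      refine ⟨sz w, mem_Ico.2 ⟨sz_pos e1, (e3 w0 h1 h2).trans_lt h3⟩, mem_biUnion.2 ⟨w, ?_, ?_⟩⟩
      · rw [hSh, mem_filter, mem_ball]
        exact ⟨le_rfl, rfl, e1, fun x hx hwx => e3 x hx (par_trans hd e1 e2 hwx)⟩
      · rw [mem_product, mem_filter, mem_filter]
        exact ⟨⟨hu, par_symm e2⟩, hv, par_trans hd (hA u hu).1 (par_symm e2) hp⟩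
  have hM0 : (0:ℝ) ≤ M := by positivity
  have h1 : ((A1.biUnion fun u => (B.filter (Par u)).image fun v => (u, v)).card : ℝ) ≤
      A.card * (33 * M / r) ^ 2 := by
    calc _ ≤ ((∑ u ∈ A1, ((B.filter (Par u)).image fun v => (u, v)).card : ℕ) : ℝ) := by
          exact_mod_cast card_biUnion_le
      _ ≤ ∑ u ∈ A1, (33 * (M:ℝ) / r) ^ 2 := by
          push_cast
          refine sum_le_sum fun u hu => ?_
          rw [hA1, mem_filter] at hu
          refine le_trans (by exact_mod_cast card_image_le)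
            (card_line' hd (hA u hu.1).1 r M hr hrM hu.2 _ fun v hv => ?_)
          rw [mem_filter] at hv
          exact ⟨hv.2, hB v hv.1⟩
      _ ≤ _ := by
          rw [sum_const, nsmul_eq_mul]
          gcongr
          exact filter_subset _ _
  have h2 : ∀ k ∈ Ico 1 r, (((Sh k).biUnion fun w =>
      A.filter (Par w) ×ˢ B.filter (Par w)).card : ℝ) ≤
      2 * (n + 5) * 3 ^ (n + 4) * 33 ^ 4 * M ^ 4 * r ^ n := by
    intro k hk
    rw [mem_Ico] at hk
    have hk0 : (0:ℝ) < k := by exact_mod_cast hk.1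
    have hkr : (k:ℝ) ≤ r := by exact_mod_cast hk.2.le
    have hc : ((Sh k).card : ℝ) ≤ 2 * (n + 5) * (3 * k) ^ (n + 4) := by
      have := card_shell (d := d) (n + 4) hn k hk.1 (Sh k) fun w hw => (mem_filter.1 hw).2.1
      exact_mod_cast this
    calc _ ≤ ((∑ w ∈ Sh k, (A.filter (Par w) ×ˢ B.filter (Par w)).card : ℕ) : ℝ) := by
          exact_mod_cast card_biUnion_le
      _ ≤ ∑ w ∈ Sh k, (33 * (M:ℝ) / k) ^ 2 * (33 * (M:ℝ) / k) ^ 2 := by
          push_cast
          refine sum_le_sum fun w hw => ?_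
          rw [hSh, mem_filter] at hw
          rw [card_product]
          push_cast
          refine mul_le_mul (card_line' hd hw.2.2.1 k M hk.1 (by omega) hw.2.2.2 _ fun v hv => ?_)
            (card_line' hd hw.2.2.1 k M hk.1 (by omega) hw.2.2.2 _ fun v hv => ?_)
            (by positivity) (by positivity)
          · rw [mem_filter] at hv
            exact ⟨hv.2, (hA v hv.1).2⟩
          · rw [mem_filter] at hv
            exact ⟨hv.2, hB v hv.1⟩
      _ ≤ (2 * (n + 5) * (3 * k) ^ (n + 4)) *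
            ((33 * (M:ℝ) / k) ^ 2 * (33 * (M:ℝ) / k) ^ 2) := by
          rw [sum_const, nsmul_eq_mul]
          gcongr
      _ = 2 * (n + 5) * 3 ^ (n + 4) * 33 ^ 4 * M ^ 4 * (k:ℝ) ^ n := by
          field_simp
          ring
      _ ≤ _ := by gcongr
  have h3 : (((Ico 1 r).biUnion fun k => (Sh k).biUnion fun w =>
      A.filter (Par w) ×ˢ B.filter (Par w)).card : ℝ) ≤
      2 * (n + 5) * 3 ^ (n + 4) * 33 ^ 4 * M ^ 4 * r ^ (n + 1) := by
    calc _ ≤ ((∑ k ∈ Ico 1 r, ((Sh k).biUnion fun w =>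
          A.filter (Par w) ×ˢ B.filter (Par w)).card : ℕ) : ℝ) := by
          exact_mod_cast card_biUnion_le
      _ ≤ ∑ k ∈ Ico 1 r, 2 * ((n:ℝ) + 5) * 3 ^ (n + 4) * 33 ^ 4 * M ^ 4 * r ^ n := by
          push_cast
          exact sum_le_sum h2
      _ ≤ r * (2 * ((n:ℝ) + 5) * 3 ^ (n + 4) * 33 ^ 4 * M ^ 4 * r ^ n) := by
          rw [sum_const, nsmul_eq_mul, Nat.card_Ico]
          gcongr
          omega
      _ = _ := by ring
  have h4 := (card_le_card hsub).trans (card_union_le _ _)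
  refine le_trans ?_ (add_le_add h1 h3)
  exact_mod_cast h4

end Vale.Agent.N036W
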